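import Vale.Agent.P347.H941.Defs2

/-! P347: the Gaussian part of the class `V_d`. -/

open scoped RealInnerProductSpace

namespace Vale.Agent.P347

/-- The quadratic potentials `V(x) = ⟨x, S x⟩ / 2` (`S` linear) of the class `V_d`; their Gibbs laws
are the centered Gaussian laws with inverse covariance between `I` and `2 I`. -/
def GaussClass (d : ℕ) : Set (Eu d → ℝ) :=
  {V | V ∈ PotClass d ∧ ∃ S : Eu d →L[ℝ] Eu d, ∀ x, V x = 1 / 2 * ⟪x, S x⟫}

end Vale.Agent.P347
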