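import Vale.Agent.P347.H941.Defs2
import Mathlib.Analysis.InnerProductSpace.Adjoint
import Mathlib.Topology.Algebra.Star.Unitary

/-!
P347, lower bound: rotated Gaussian targets with `M + 1` equally spaced eigenvalues.
-/

open MeasureTheory
open scoped RealInnerProductSpace

namespace Vale.Agent.P347.Low

/-- The orthogonal group of `Eu d`. -/
abbrev OG (d : ℕ) : Type := unitary (Eu d →L[ℝ] Eu d)

variable {d : ℕ}

/-- The action of the orthogonal group. -/
def act (g : OG d) (x : Eu d) : Eu d := (g : Eu d →L[ℝ] Eu d) x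

/-- The nodes `1 + a / M`, `a = 0, ..., M`. -/
noncomputable def node (M a : ℕ) : ℝ := 1 + (a : ℝ) / M

/-- The eigenvalue of the coordinate `l`. -/
noncomputable def lam (M : ℕ) (l : Fin d) : ℝ := node M ((l : ℕ) % (M + 1))

/-- The diagonal map with the eigenvalues `lam M l`. -/
noncomputable def diagM (M : ℕ) (x : Eu d) : Eu d := WithLp.toLp 2 fun l => lam M l * x l

/-- The quadratic potential with Hessian `U D U⁻¹`. -/
noncomputable def pot (M : ℕ) (U : OG d) (x : Eu d) : ℝ :=
  1 / 2 * ∑ l, lam M l * (act U⁻¹ x l) ^ 2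

/-- The coordinates with the eigenvalue `node M a`. -/
def cell (d M a : ℕ) : Finset (Fin d) := Finset.univ.filter fun l => (l : ℕ) % (M + 1) = a

/-- The scalar product of the components in the eigenspace number `a`. -/
noncomputable def ip (M a : ℕ) (x y : Eu d) : ℝ := ∑ l ∈ cell d M a, x l * y l

/-- The test which a sample passes: its components in the eigenspaces have the typical length. -/
def Test (M : ℕ) (ε : ℝ) (z : Eu d) : Prop :=
  ∀ a ≤ M, |node M a * ip M a z z - (cell d M a).card| ≤ ε * (cell d M a).card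

/-- Unit vectors whose components in each eigenspace are almost orthogonal, of typical length. -/
def Gram (M : ℕ) (δ : ℝ) {k : ℕ} (u : Fin k → Eu d) : Prop :=
  (∀ i, ‖u i‖ = 1) ∧ ∀ a ≤ M, ∀ i j,
    |ip M a (u i) (u j) - if i = j then ((cell d M a).card : ℝ) / d else 0| ≤ δ

/-- The block Krylov space: the vectors `∑ p_i(D) u_i` with `deg p_i ≤ j`. -/
def Kry (M : ℕ) {k : ℕ} (u : Fin k → Eu d) (j : ℕ) : Submodule ℝ (Eu d) where
  carrier := {z | ∃ p : Fin k → Polynomial ℝ, (∀ i, (p i).natDegree ≤ j) ∧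
    ∀ l, z l = ∑ i, (p i).eval (lam M l) * u i l}
  zero_mem' := ⟨fun _ => 0, fun _ => by simp, fun l => by simp⟩
  add_mem' := by
    rintro x y ⟨p, hp, hx⟩ ⟨r, hr, hy⟩
    refine ⟨fun i => p i + r i, fun i => (Polynomial.natDegree_add_le _ _).trans
      (max_le (hp i) (hr i)), fun l => ?_⟩
    simp only [PiLp.add_apply, hx, hy, Polynomial.eval_add, add_mul, Finset.sum_add_distrib]
  smul_mem' := by
    rintro c x ⟨p, hp, hx⟩
    refine ⟨fun i => c • p i, fun i => (Polynomial.natDegree_smul_le _ _).trans (hp i),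
      fun l => ?_⟩
    simp only [PiLp.smul_apply, hx, Polynomial.eval_smul, smul_eq_mul, Finset.mul_sum, mul_assoc]

/-- Every eigenspace has dimension at least `d / (2 (M + 1))`. -/
theorem le_card_cell {M a : ℕ} (ha : a ≤ M) (hd : M + 1 ≤ d) :
    d ≤ 2 * (M + 1) * (cell d M a).card := by
  have h1 : d / (M + 1) ≤ (cell d M a).card := by
    have hlt : ∀ t : Fin (d / (M + 1)), (M + 1) * (t : ℕ) + a < d := by
      intro t
      have h2 : (M + 1) * ((t : ℕ) + 1) ≤ (M + 1) * (d / (M + 1)) :=
        Nat.mul_le_mul_left _ t.2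
      have h3 := Nat.mul_div_le d (M + 1)
      rw [Nat.mul_add] at h2
      omega
    have := Finset.card_le_card_of_injOn (s := (Finset.univ : Finset (Fin (d / (M + 1)))))
      (t := cell d M a) (fun t => (⟨(M + 1) * (t : ℕ) + a, hlt t⟩ : Fin d))
      (fun t _ => by
        simp only [cell, Finset.coe_filter, Finset.mem_univ, true_and, Set.mem_ofPred_eq]
        rw [Nat.mul_add_mod]
        exact Nat.mod_eq_of_lt (by omega))
      (fun s _ t _ h => by
        have h' : (M + 1) * (s : ℕ) + a = (M + 1) * (t : ℕ) + a := congrArg Fin.val h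
        exact Fin.ext (Nat.eq_of_mul_eq_mul_left (Nat.succ_pos M) (Nat.add_right_cancel h')))
    simpa using this
  have h4 : 1 ≤ d / (M + 1) := (Nat.le_div_iff_mul_le (Nat.succ_pos M)).2 (by omega)
  have h5 := Nat.div_add_mod d (M + 1)
  have h6 : d % (M + 1) < M + 1 := Nat.mod_lt d (Nat.succ_pos M)
  have h7 : (M + 1) * (d / (M + 1)) ≤ (M + 1) * (cell d M a).card := Nat.mul_le_mul_left _ h1
  have h8 : (M + 1) * 1 ≤ (M + 1) * (d / (M + 1)) := Nat.mul_le_mul_left _ h4
  calc d ≤ 2 * ((M + 1) * (d / (M + 1))) := by omega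
    _ ≤ 2 * ((M + 1) * (cell d M a).card) := by omega
    _ = _ := by ring

end Vale.Agent.P347.Low
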