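import Vale.Agent.P347Z.Low.Defs
import Mathlib.Probability.Distributions.Gaussian.Real
import Mathlib.Probability.Moments.Variance
import Mathlib.MeasureTheory.Measure.Haar.InnerProductSpace
import Mathlib.MeasureTheory.Integral.Pi

/-!
P347, lower bound: the rotated Gaussian potentials belong to the class, their gradients, and the
concentration of the components of a sample in the eigenspaces.
-/

open MeasureTheory
open scoped RealInnerProductSpace

namespace Vale.Agent.P347.Low

variable {d M : ℕ}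

namespace Gs

open ProbabilityTheory
open scoped NNReal ENNReal

theorem one_le_lam (M : ℕ) (l : Fin d) : 1 ≤ lam M l := by
  unfold lam node
  have : (0 : ℝ) ≤ (((l : ℕ) % (M + 1) : ℕ) : ℝ) / M := by positivity
  linarith

theorem lam_pos (M : ℕ) (l : Fin d) : 0 < lam M l := lt_of_lt_of_le one_pos (one_le_lam M l)

theorem lam_le_two (hM : 1 ≤ M) (l : Fin d) : lam M l ≤ 2 := by
  unfold lam node
  have h1 : (l : ℕ) % (M + 1) ≤ M := Nat.le_of_lt_succ (Nat.mod_lt _ (Nat.succ_pos M))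
  have h2 : (((l : ℕ) % (M + 1) : ℕ) : ℝ) ≤ M := by exact_mod_cast h1
  have h3 : (0 : ℝ) < M := by exact_mod_cast hM
  have := (div_le_one h3).2 h2
  linarith

theorem act_act_inv (U : OG d) (x : Eu d) : act U (act U⁻¹ x) = x :=
  (Unitary.linearIsometryEquiv U).apply_symm_apply x

theorem inner_act (U : OG d) (x y : Eu d) : ⟪act U x, act U y⟫ = ⟪x, y⟫ :=
  Unitary.inner_map_map U x y

theorem norm_act (U : OG d) (x : Eu d) : ‖act U x‖ = ‖x‖ := Unitary.norm_map U x

/-- The diagonal map as a continuous linear map. -/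
noncomputable def dg (d M : ℕ) : Eu d →L[ℝ] Eu d :=
  LinearMap.toContinuousLinearMap
    { toFun := diagM M
      map_add' := fun x y => by
        ext l
        simp [diagM, mul_add]
      map_smul' := fun c x => by
        ext l
        simp only [diagM, PiLp.smul_apply, smul_eq_mul, RingHom.id_apply]
        ring }

/-- The Hessian. -/
noncomputable def hs (M : ℕ) (U : OG d) : Eu d →L[ℝ] Eu d :=
  (U : Eu d →L[ℝ] Eu d) ∘L dg d M ∘L ((U⁻¹ : OG d) : Eu d →L[ℝ] Eu d)

theorem hs_apply (U : OG d) (x : Eu d) : hs M U x = act U (diagM M (act U⁻¹ x)) := rfl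

theorem inner_hs (U : OG d) (x y : Eu d) :
    ⟪x, hs M U y⟫ = ∑ l, lam M l * (act U⁻¹ x l * act U⁻¹ y l) := by
  rw [hs_apply]
  conv_lhs => rw [← act_act_inv U x, inner_act]
  rw [PiLp.inner_apply]
  refine Finset.sum_congr rfl fun l _ => ?_
  simp only [diagM, RCLike.inner_apply, conj_trivial]
  ring

theorem hs_symm (U : OG d) (x y : Eu d) : ⟪x, hs M U y⟫ = ⟪hs M U x, y⟫ := by
  rw [real_inner_comm y (hs M U x), inner_hs, inner_hs]
  exact Finset.sum_congr rfl fun l _ => by ring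

theorem pot_eq (U : OG d) (x : Eu d) : pot M U x = 1 / 2 * ⟪x, hs M U x⟫ := by
  rw [inner_hs, pot]
  simp only [sq]

/-- The second derivative. -/
noncomputable def d2 (M : ℕ) (U : OG d) : Eu d →L[ℝ] Eu d →L[ℝ] ℝ :=
  (innerSL ℝ : Eu d →L[ℝ] Eu d →L[ℝ] ℝ) ∘L hs M U

theorem d2_apply (U : OG d) (x y : Eu d) : d2 M U x y = ⟪hs M U x, y⟫ := rfl

theorem hasFDerivAt_pot (U : OG d) (x : Eu d) : HasFDerivAt (pot M U) (d2 M U x) x := by
  have h1 : HasFDerivAt (fun y : Eu d => 1 / 2 * ⟪y, hs M U y⟫)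
      ((1 / 2 : ℝ) • (fderivInnerCLM ℝ (x, hs M U x)).comp
        ((ContinuousLinearMap.id ℝ (Eu d)).prod (hs M U))) x :=
    ((hasFDerivAt_id x).inner ℝ (hs M U).hasFDerivAt).const_mul (1 / 2)
  have h2 : pot M U = fun y : Eu d => 1 / 2 * ⟪y, hs M U y⟫ := funext (pot_eq U)
  rw [h2]
  refine h1.congr_fderiv ?_
  ext v
  change 1 / 2 * (⟪x, hs M U v⟫ + ⟪v, hs M U x⟫) = ⟪hs M U x, v⟫
  rw [hs_symm U x v, real_inner_comm (hs M U x) v]
  ring

theorem fderiv_pot (U : OG d) : fderiv ℝ (pot M U) = d2 M U :=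
  funext fun x => (hasFDerivAt_pot U x).fderiv

theorem gradient_eq (U : OG d) (x : Eu d) : gradient (pot M U) x = hs M U x := by
  refine HasGradientAt.gradient ?_
  rw [hasGradientAt_iff_hasFDerivAt]
  exact hasFDerivAt_pot U x

/-! ### moments -/

theorem int_two (v : ℝ≥0) : ∫ x, x ^ 2 ∂(gaussianReal 0 v) = v := by
  have h := variance_id_gaussianReal (μ := 0) (v := v)
  rw [variance_eq_integral (by fun_prop)] at h
  simpa only [id_eq, integral_id_gaussianReal, sub_zero] using h

theorem int_four (v : ℝ≥0) : ∫ x, x ^ 4 ∂(gaussianReal 0 v) = 3 * (v : ℝ) ^ 2 := by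
  have h0 : ∫ x, x ^ 4 ∂(gaussianReal 0 v) =
      iteratedDeriv 4 (mgf (fun x => x) (gaussianReal 0 v)) 0 := by
    rw [iteratedDeriv_mgf_zero] <;> simp
  have he : ∀ t : ℝ, HasDerivAt (fun t : ℝ => Real.exp (v * t ^ 2 / 2))
      (v * t * Real.exp (v * t ^ 2 / 2)) t := fun t => by
    have h := (((hasDerivAt_pow 2 t).const_mul (v : ℝ)).div_const 2).exp
    refine h.congr_deriv ?_
    simp only [Nat.cast_ofNat, Nat.add_one_sub_one, pow_one]
    ring
  have hp : ∀ a b c e : ℝ, ∀ t : ℝ, HasDerivAt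
      (fun t : ℝ => (a + b * t + c * t ^ 2 + e * t ^ 3) * Real.exp (v * t ^ 2 / 2))
      ((b + 2 * c * t + 3 * e * t ^ 2 + v * t * (a + b * t + c * t ^ 2 + e * t ^ 3)) *
        Real.exp (v * t ^ 2 / 2)) t := fun a b c e t => by
    have h := (((((hasDerivAt_id t).const_mul b).const_add a).add
      ((hasDerivAt_pow 2 t).const_mul c)).add ((hasDerivAt_pow 3 t).const_mul e)).mul (he t)
    refine h.congr_deriv ?_
    simp only [Nat.cast_ofNat, Nat.add_one_sub_one, pow_one, id_eq, Pi.add_apply]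
    ring
  have e0 : (fun t : ℝ => Real.exp (0 * t + v * t ^ 2 / 2)) =
      fun t : ℝ => (1 + 0 * t + 0 * t ^ 2 + 0 * t ^ 3) * Real.exp (v * t ^ 2 / 2) := by
    funext t
    simp
  have e1 : deriv (fun t : ℝ => (1 + 0 * t + 0 * t ^ 2 + 0 * t ^ 3) * Real.exp (v * t ^ 2 / 2)) =
      fun t : ℝ => (0 + v * t + 0 * t ^ 2 + 0 * t ^ 3) * Real.exp (v * t ^ 2 / 2) := by
    funext t
    rw [(hp _ _ _ _ t).deriv]
    ring
  have e2 : deriv (fun t : ℝ => (0 + v * t + 0 * t ^ 2 + 0 * t ^ 3) * Real.exp (v * t ^ 2 / 2)) =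
      fun t : ℝ => (v + 0 * t + v ^ 2 * t ^ 2 + 0 * t ^ 3) * Real.exp (v * t ^ 2 / 2) := by
    funext t
    rw [(hp _ _ _ _ t).deriv]
    ring
  have e3 : deriv (fun t : ℝ => (v + 0 * t + v ^ 2 * t ^ 2 + 0 * t ^ 3) *
      Real.exp (v * t ^ 2 / 2)) = fun t : ℝ =>
      (0 + 3 * v ^ 2 * t + 0 * t ^ 2 + v ^ 3 * t ^ 3) * Real.exp (v * t ^ 2 / 2) := by
    funext t
    rw [(hp _ _ _ _ t).deriv]
    ring
  rw [h0, mgf_fun_id_gaussianReal, e0, iteratedDeriv_succ, iteratedDeriv_succ, iteratedDeriv_succ,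
    iteratedDeriv_one, e1, e2, e3, (hp _ _ _ _ 0).deriv]
  simp

theorem memLp_sq (v : ℝ≥0) (c : ℝ) : MemLp (fun t : ℝ => c * t ^ 2) 2 (gaussianReal 0 v) := by
  refine MemLp.const_mul ?_ c
  have h4 := memLp_id_gaussianReal' (μ := 0) (v := v) 4 (by simp)
  have : ENNReal.HolderTriple 4 4 2 := ⟨by
    rw [← two_mul, show (4 : ℝ≥0∞) = 2 * 2 by norm_num, ENNReal.mul_inv (by simp) (by simp),
      ← mul_assoc, ENNReal.mul_inv_cancel (by simp) (by simp), one_mul]⟩
  have h := h4.mul' (r := 2) h4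
  simpa only [id_eq, sq] using h

/-! ### the law -/

/-- The variance of the coordinate `l`. -/
noncomputable def vr (M : ℕ) (l : Fin d) : ℝ≥0 := ⟨(lam M l)⁻¹, (inv_pos.2 (lam_pos M l)).le⟩

theorem vr_coe (l : Fin d) : (vr M l : ℝ) = (lam M l)⁻¹ := rfl

theorem vr_ne (l : Fin d) : vr M l ≠ 0 := fun h =>
  (inv_pos.2 (lam_pos M l)).ne' (congrArg NNReal.toReal h)

/-- The product law. -/
noncomputable def law (d M : ℕ) : Measure (Fin d → ℝ) :=
  Measure.pi fun l => gaussianReal 0 (vr M l)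

instance : IsProbabilityMeasure (law d M) := by
  unfold law
  infer_instance

theorem pi_dens {ι : Type} [Fintype ι] (f : ι → ℝ → ℝ) (h0 : ∀ i x, 0 ≤ f i x)
    (hi : ∀ i, Integrable (f i)) :
    (Measure.pi fun i => (volume : Measure ℝ).withDensity fun x => ENNReal.ofReal (f i x))
      = (volume : Measure (ι → ℝ)).withDensity fun y => ENNReal.ofReal (∏ i, f i (y i)) := by
  have hsf : ∀ i, IsFiniteMeasure
      ((volume : Measure ℝ).withDensity fun x => ENNReal.ofReal (f i x)) := fun i =>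
    isFiniteMeasure_withDensity_ofReal (hi i).2
  refine Measure.pi_eq fun s hs => ?_
  rw [withDensity_apply _ (MeasurableSet.univ_pi hs), volume_pi, Measure.restrict_pi_pi,
    ← ofReal_integral_eq_lintegral_ofReal, integral_fintype_prod_eq_prod,
    ENNReal.ofReal_prod_of_nonneg]
  · refine Finset.prod_congr rfl fun i _ => ?_
    rw [withDensity_apply _ (hs i), ← ofReal_integral_eq_lintegral_ofReal]
    · exact (hi i).restrict
    · exact ae_of_all _ (h0 i)
  · exact fun i _ => integral_nonneg (h0 i)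
  · exact Integrable.fintype_prod_dep fun i => (hi i).restrict
  · exact ae_of_all _ fun y => Finset.prod_nonneg fun i _ => h0 i _

/-- The unnormalised density. -/
noncomputable def den (M : ℕ) (y : Fin d → ℝ) : ℝ≥0∞ :=
  ENNReal.ofReal (Real.exp (-(1 / 2 * ∑ l, lam M l * (y l) ^ 2)))

theorem measurable_den : Measurable (den (d := d) M) := by
  unfold den
  fun_prop

theorem law_eq : ∃ c : ℝ≥0∞, ∀ s, MeasurableSet s → law d M s = c * ∫⁻ y in s, den M y := by
  refine ⟨ENNReal.ofReal (∏ l : Fin d, (√(2 * Real.pi * vr M l))⁻¹), fun s hs => ?_⟩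
  have h1 : law d M = (volume : Measure (Fin d → ℝ)).withDensity
      fun y => ENNReal.ofReal (∏ l, gaussianPDFReal 0 (vr M l) (y l)) := by
    rw [← pi_dens (fun l => gaussianPDFReal 0 (vr M l)) (fun l x => gaussianPDFReal_nonneg _ _ x)
      fun l => integrable_gaussianPDFReal _ _]
    unfold law
    congr 1
    funext l
    rw [gaussianReal_of_var_ne_zero _ (vr_ne l)]
    rfl
  rw [h1, withDensity_apply _ hs, ← lintegral_const_mul _ measurable_den]
  refine lintegral_congr fun y => ?_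
  rw [den, ← ENNReal.ofReal_mul (Finset.prod_nonneg fun l _ => by positivity)]
  congr 1
  unfold gaussianPDFReal
  rw [Finset.prod_mul_distrib, ← Real.exp_sum]
  congr 2
  rw [Finset.mul_sum, ← Finset.sum_neg_distrib]
  refine Finset.sum_congr rfl fun l _ => ?_
  have := (lam_pos M l).ne'
  rw [vr_coe]
  field_simp
  ring

/-- The coordinates in the eigenbasis. -/
noncomputable def crd (U : OG d) (x : Eu d) : Fin d → ℝ := WithLp.ofLp (act U⁻¹ x)

theorem mp_crd (U : OG d) : MeasurePreserving (crd U) volume volume :=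
  (PiLp.volume_preserving_ofLp (Fin d)).comp
    (LinearIsometryEquiv.measurePreserving (Unitary.linearIsometryEquiv U⁻¹))

theorem target_pre (U : OG d) {s : Set (Fin d → ℝ)} (hs : MeasurableSet s) :
    target (pot M U) (crd U ⁻¹' s) = law d M s := by
  obtain ⟨c, hc⟩ := law_eq (d := d) (M := M)
  have h1 : (fun x => ENNReal.ofReal (Real.exp (-pot M U x))) = fun x => den M (crd U x) := rfl
  have h2 : c * ∫⁻ y : Fin d → ℝ, den M y = 1 := by
    have := hc _ MeasurableSet.univ
    rw [measure_univ, Measure.restrict_univ] at this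
    exact this.symm
  rw [target, gibbsOn, h1, Measure.smul_apply, smul_eq_mul,
    withDensity_apply _ ((mp_crd U).measurable hs), (mp_crd U).lintegral_comp measurable_den,
    (mp_crd U).setLIntegral_comp_preimage hs measurable_den, hc s hs,
    ENNReal.eq_inv_of_mul_eq_one_left h2]

/-! ### concentration -/

/-- The summands of the test. -/
noncomputable def sm (M a : ℕ) (l : Fin d) (t : ℝ) : ℝ :=
  (if l ∈ cell d M a then lam M l else 0) * t ^ 2

theorem int_sm (a : ℕ) (l : Fin d) :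
    ∫ t, sm M a l t ∂(gaussianReal 0 (vr M l)) = if l ∈ cell d M a then 1 else 0 := by
  unfold sm
  rw [integral_const_mul, int_two, vr_coe]
  split_ifs
  · exact mul_inv_cancel₀ (lam_pos M l).ne'
  · exact zero_mul _

theorem var_sm (a : ℕ) (l : Fin d) :
    Var[sm M a l; gaussianReal 0 (vr M l)] ≤ if l ∈ cell d M a then 4 else 0 := by
  refine (variance_le_expectation_sq (memLp_sq _ _).1).trans ?_
  have h : ((sm M a l) ^ 2 : ℝ → ℝ) =
      fun t => (if l ∈ cell d M a then lam M l else 0) ^ 2 * t ^ 4 := by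
    funext t
    simp only [Pi.pow_apply, sm]
    ring
  change ∫ t, ((sm M a l) ^ 2 : ℝ → ℝ) t ∂(gaussianReal 0 (vr M l)) ≤ _
  rw [h, integral_const_mul, int_four, vr_coe]
  split_ifs
  · have := (lam_pos M l).ne'
    rw [show lam M l ^ 2 * (3 * (lam M l)⁻¹ ^ 2) = 3 by field_simp]
    norm_num
  · simp

theorem cheb {a : ℕ} (ha : a ≤ M) (hd : M + 1 ≤ d) {ε : ℝ} (hε : 0 < ε) :
    (law d M).real {y | ε * (cell d M a).card ≤ |∑ l, sm M a l (y l) - (cell d M a).card|} ≤
      8 * ((M : ℝ) + 1) / (ε ^ 2 * d) := by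
  have hc := le_card_cell ha hd
  have hc' : (d : ℝ) ≤ 2 * (M + 1) * (cell d M a).card := by exact_mod_cast hc
  have hd0 : (0 : ℝ) < d := by exact_mod_cast (by omega : 0 < d)
  have hN : (0 : ℝ) < (cell d M a).card := by
    have : 0 < (cell d M a).card := Nat.pos_of_ne_zero fun h => by
      rw [h] at hc
      omega
    exact_mod_cast this
  have hL : ∀ l : Fin d, MemLp (sm M a l) 2 (gaussianReal 0 (vr M l)) := fun l => memLp_sq _ _
  have hL' : ∀ l : Fin d, MemLp (fun y : Fin d → ℝ => sm M a l (y l)) 2 (law d M) := fun l =>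
    (hL l).comp_measurePreserving (measurePreserving_eval _ l)
  have hX : MemLp (∑ l, fun y : Fin d → ℝ => sm M a l (y l)) 2 (law d M) :=
    memLp_finsetSum' _ fun l _ => hL' l
  have hE : ∫ y, (∑ l, fun y : Fin d → ℝ => sm M a l (y l)) y ∂(law d M) = (cell d M a).card := by
    simp only [Finset.sum_apply]
    rw [integral_finsetSum _ fun l _ => (hL' l).integrable one_le_two]
    have : ∀ l, ∫ y, sm M a l (y l) ∂(law d M) = if l ∈ cell d M a then 1 else 0 := fun l => by
      rw [← int_sm]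
      exact integral_comp_eval (hL l).1
    simp only [this]
    simp
  have hV : Var[∑ l, fun y : Fin d → ℝ => sm M a l (y l); law d M] ≤ 4 * (cell d M a).card := by
    unfold law
    rw [variance_sum_pi hL]
    refine (Finset.sum_le_sum fun l _ => var_sm a l).trans (le_of_eq ?_)
    simp [mul_comm]
  have h := meas_ge_le_variance_div_sq hX (mul_pos hε hN)
  rw [hE] at h
  simp only [Finset.sum_apply] at h
  refine (ENNReal.toReal_le_of_le_ofReal (div_nonneg (variance_nonneg _ _) (sq_nonneg _)) h).trans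
    ((div_le_div_of_nonneg_right hV (sq_nonneg _)).trans ?_)
  rw [div_le_div_iff₀ (by positivity) (by positivity)]
  have := mul_le_mul_of_nonneg_left hc'
    (by positivity : (0 : ℝ) ≤ 4 * (cell d M a).card * ε ^ 2)
  nlinarith [this]

theorem sum_sm (a : ℕ) (z : Eu d) : ∑ l, sm M a l (z l) = node M a * ip M a z z := by
  unfold sm ip
  simp only [ite_mul, zero_mul]
  rw [Finset.sum_ite_mem, Finset.univ_inter, Finset.mul_sum]
  refine Finset.sum_congr rfl fun l hl => ?_
  rw [lam, (Finset.mem_filter.1 hl).2, sq]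

end Gs

open Gs

theorem pot_mem (hM : 1 ≤ M) (U : OG d) : pot M U ∈ PotClass d := by
  refine ⟨?_, ?_, ?_, fun x v => ?_⟩
  · have h2 : pot M U = fun y : Eu d => 1 / 2 * ⟪y, hs M U y⟫ := funext (pot_eq U)
    rw [h2]
    exact contDiff_const.mul (contDiff_id.inner ℝ (hs M U).contDiff)
  · rw [pot_eq, inner_zero_left, mul_zero]
  · rw [gradient_eq, map_zero]
  · rw [fderiv_pot, ContinuousLinearMap.fderiv, d2_apply, ← hs_symm, inner_hs,
      ← norm_act U⁻¹ v, EuclideanSpace.real_norm_sq_eq, Finset.mul_sum]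
    refine ⟨Finset.sum_le_sum fun l _ => ?_, Finset.sum_le_sum fun l _ => ?_⟩
    · rw [← sq]
      exact le_mul_of_one_le_left (sq_nonneg _) (one_le_lam M l)
    · rw [← sq]
      exact mul_le_mul_of_nonneg_right (lam_le_two hM l) (sq_nonneg _)

theorem pot_quad (U : OG d) : ∃ S : Eu d →L[ℝ] Eu d, ∀ x, pot M U x = 1 / 2 * ⟪x, S x⟫ :=
  ⟨hs M U, pot_eq U⟩

theorem gradient_pot (U : OG d) (x : Eu d) :
    gradient (pot M U) x = act U (diagM M (act U⁻¹ x)) :=
  gradient_eq U x

theorem target_prob (hM : 1 ≤ M) (U : OG d) : IsProbabilityMeasure (target (pot M U)) := by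
  have _h := hM
  refine ⟨?_⟩
  rw [← Set.preimage_univ (f := crd U), target_pre U MeasurableSet.univ, measure_univ]

theorem gauss_test (hM : 1 ≤ M) (hd : M + 1 ≤ d) (U : OG d) {ε : ℝ} (hε : 0 < ε) :
    (target (pot M U)).real {x | ¬ Test M ε (act U⁻¹ x)} ≤
      8 * ((M : ℝ) + 1) ^ 2 / (ε ^ 2 * d) := by
  have := target_prob hM U
  set B : ℕ → Set (Fin d → ℝ) := fun a =>
    {y | ε * (cell d M a).card ≤ |∑ l, sm M a l (y l) - (cell d M a).card|} with hB
  have hBm : ∀ a, MeasurableSet (B a) := fun a => by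
    refine measurableSet_le measurable_const ?_
    unfold sm
    fun_prop
  have hsub : {x | ¬ Test M ε (act U⁻¹ x)} ⊆ ⋃ a ∈ Finset.range (M + 1), crd U ⁻¹' B a := by
    intro x hx
    simp only [Test, Set.mem_ofPred_eq, not_forall, not_le] at hx
    obtain ⟨a, ha, hx⟩ := hx
    refine Set.mem_iUnion₂.2 ⟨a, Finset.mem_range.2 (Nat.lt_succ_of_le ha), ?_⟩
    rw [← sum_sm] at hx
    exact hx.le
  refine (measureReal_mono hsub (measure_ne_top _ _)).trans ((measureReal_biUnion_finset_le _ _).trans ?_)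
  have h1 : ∀ a ∈ Finset.range (M + 1), (target (pot M U)).real (crd U ⁻¹' B a) ≤
      8 * ((M : ℝ) + 1) / (ε ^ 2 * d) := fun a ha => by
    rw [Measure.real, target_pre U (hBm a)]
    exact cheb (Nat.le_of_lt_succ (Finset.mem_range.1 ha)) hd hε
  refine (Finset.sum_le_sum h1).trans (le_of_eq ?_)
  rw [Finset.sum_const, Finset.card_range, nsmul_eq_mul]
  push_cast
  ring

end Vale.Agent.P347.Low
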