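import Vale.Agent.P347Z.Low.Defs
import Mathlib.MeasureTheory.Measure.Haar.Unique
import Mathlib.MeasureTheory.Constructions.BorelSpace.ContinuousLinearMap

/-!
P347, lower bound: invariant probability measures on the pointwise stabilizers of subspaces.
-/

open MeasureTheory
open scoped RealInnerProductSpace ENNReal

namespace Vale.Agent.P347.Low

variable {d : ℕ}

theorem act_mul (g h : OG d) (x : Eu d) : act (g * h) x = act g (act h x) := rfl

@[simp] theorem act_one (x : Eu d) : act 1 x = x := rfl

@[simp] theorem act_inv_act (g : OG d) (x : Eu d) : act g⁻¹ (act g x) = x := by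
  rw [← act_mul, inv_mul_cancel, act_one]

@[simp] theorem act_act_inv (g : OG d) (x : Eu d) : act g (act g⁻¹ x) = x := by
  rw [← act_mul, mul_inv_cancel, act_one]

theorem act_add (g : OG d) (x y : Eu d) : act g (x + y) = act g x + act g y := map_add _ _ _

theorem act_smul (g : OG d) (c : ℝ) (x : Eu d) : act g (c • x) = c • act g x := map_smul _ _ _

theorem norm_act (g : OG d) (x : Eu d) : ‖act g x‖ = ‖x‖ := Unitary.norm_map g x

theorem inner_act (g : OG d) (x y : Eu d) : ⟪act g x, act g y⟫ = ⟪x, y⟫ :=
  Unitary.inner_map_map g x y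

theorem continuous_act : Continuous fun p : OG d × Eu d => act p.1 p.2 := by
  unfold act
  exact (continuous_subtype_val.comp continuous_fst).clm_apply continuous_snd

instance : ContinuousStar (Eu d →L[ℝ] Eu d) :=
  NormedStarGroup.to_continuousStar (E := Eu d →L[ℝ] Eu d)

instance : CompactSpace (OG d) := by
  refine isCompact_iff_compactSpace.1 (Metric.isCompact_of_isClosed_isBounded isClosed_unitary ?_)
  refine (Metric.isBounded_closedBall (x := (0 : Eu d →L[ℝ] Eu d)) (r := 1)).subset fun g hg => ?_
  rw [mem_closedBall_zero_iff]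
  refine ContinuousLinearMap.opNorm_le_bound _ zero_le_one fun x => ?_
  rw [ContinuousLinearMap.norm_map_of_mem_unitary hg, one_mul]

/-- `g` fixes the subspace `T` pointwise. -/
def Fixes (T : Submodule ℝ (Eu d)) (g : OG d) : Prop := ∀ x ∈ T, act g x = x

theorem Fixes.mul {T : Submodule ℝ (Eu d)} {g h : OG d} (hg : Fixes T g) (hh : Fixes T h) :
    Fixes T (g * h) := fun x hx => by rw [act_mul, hh x hx, hg x hx]

theorem Fixes.inv {T : Submodule ℝ (Eu d)} {g : OG d} (hg : Fixes T g) : Fixes T g⁻¹ :=
  fun x hx => by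
    conv_lhs => rw [← hg x hx]
    exact act_inv_act g x

theorem Fixes.mono {T T' : Submodule ℝ (Eu d)} {g : OG d} (h : T ≤ T') (hg : Fixes T' g) :
    Fixes T g := fun x hx => hg x (h hx)

/-- The pointwise stabilizer of `T`. -/
def stab (T : Submodule ℝ (Eu d)) : Subgroup (OG d) where
  carrier := {g | Fixes T g}
  one_mem' := fun _ _ => rfl
  mul_mem' := Fixes.mul
  inv_mem' := Fixes.inv

theorem isClosed_fixes (T : Submodule ℝ (Eu d)) : IsClosed {g : OG d | Fixes T g} := by
  have : {g : OG d | Fixes T g} = ⋂ x ∈ T, {g : OG d | act g x = x} := by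
    ext g
    simp [Fixes]
  rw [this]
  refine isClosed_biInter fun x _ => isClosed_eq ?_ continuous_const
  exact continuous_act.comp (continuous_id.prodMk continuous_const)

/-- `κ` is a probability measure on the pointwise stabilizer of `T`, invariant on both sides. -/
structure HaarOn (T : Submodule ℝ (Eu d)) (κ : Measure (OG d)) : Prop where
  prob : IsProbabilityMeasure κ
  supp : ∀ᵐ R ∂κ, Fixes T R
  left : ∀ g, Fixes T g → κ.map (fun R => g * R) = κ
  right : ∀ g, Fixes T g → κ.map (fun R => R * g) = κ

theorem exists_haarOn (T : Submodule ℝ (Eu d)) : ∃ κ, HaarOn T κ := by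
  have : CompactSpace (stab T) := isCompact_iff_compactSpace.1 (isClosed_fixes T).isCompact
  let μ : Measure (stab T) := Measure.haarMeasure ⊤
  have hp : IsProbabilityMeasure μ := ⟨by
    have := Measure.haarMeasure_self (G := stab T) (K₀ := ⊤)
    simpa [μ] using this⟩
  have hm : Measurable (fun g : stab T => (g : OG d)) := measurable_subtype_coe
  refine ⟨μ.map (fun g : stab T => (g : OG d)), Measure.isProbabilityMeasure_map hm.aemeasurable, ?_, ?_, ?_⟩
  · rw [ae_map_iff hm.aemeasurable (isClosed_fixes T).measurableSet]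
    exact Filter.Eventually.of_forall fun g => g.2
  · intro g hg
    rw [Measure.map_map (measurable_const_mul g) hm]
    have e : (fun R => g * R) ∘ (fun g : stab T => (g : OG d)) =
        (fun g : stab T => (g : OG d)) ∘ fun R => (⟨g, hg⟩ : stab T) * R := rfl
    rw [e, ← Measure.map_map hm (measurable_const_mul _), map_mul_left_eq_self]
  · intro g hg
    rw [Measure.map_map (measurable_mul_const g) hm]
    have e : (fun R => R * g) ∘ (fun g : stab T => (g : OG d)) =
        (fun g : stab T => (g : OG d)) ∘ fun R => R * (⟨g, hg⟩ : stab T) := rfl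
    rw [e, ← Measure.map_map hm (measurable_mul_const _)]
    congr 1
    have : IsProbabilityMeasure (μ.map fun R => R * (⟨g, hg⟩ : stab T)) :=
      Measure.isProbabilityMeasure_map (measurable_mul_const _).aemeasurable
    exact Measure.isHaarMeasure_eq_of_isProbabilityMeasure _ _

/-- Conjugation. -/
theorem HaarOn.conj {T T' : Submodule ℝ (Eu d)} {κ : Measure (OG d)} (h : HaarOn T κ) (g : OG d)
    (hT : ∀ x, x ∈ T' ↔ act g x ∈ T) : HaarOn T' (κ.map fun R => g⁻¹ * R * g) := by
  have := h.prob
  have hm : Measurable fun R : OG d => g⁻¹ * R * g := by fun_prop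
  have key : ∀ k, Fixes T' k → Fixes T (g * k * g⁻¹) := by
    intro k hk x hx
    rw [act_mul, act_mul, hk _ ((hT _).2 (by rwa [act_act_inv])), act_act_inv]
  refine ⟨Measure.isProbabilityMeasure_map hm.aemeasurable, ?_, ?_, ?_⟩
  · rw [ae_map_iff hm.aemeasurable (isClosed_fixes T').measurableSet]
    filter_upwards [h.supp] with R hR x hx
    rw [act_mul, act_mul, hR _ ((hT x).1 hx), act_inv_act]
  · intro k hk
    rw [Measure.map_map (measurable_const_mul k) hm]
    conv_rhs => rw [← h.left _ (key k hk)]
    rw [Measure.map_map hm (measurable_const_mul _)]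
    congr 1
    funext R
    simp only [Function.comp]
    group
  · intro k hk
    rw [Measure.map_map (measurable_mul_const k) hm]
    conv_rhs => rw [← h.right _ (key k hk)]
    rw [Measure.map_map hm (measurable_mul_const _)]
    congr 1
    funext R
    simp only [Function.comp]
    group

/-- Refinement on the right. -/
theorem HaarOn.refine_right {T T' : Submodule ℝ (Eu d)} {κ κ' : Measure (OG d)} (h : HaarOn T κ)
    (h' : HaarOn T' κ') (hT : T ≤ T') {P : Set (OG d)} (hP : MeasurableSet P) :
    κ P = ∫⁻ R, κ' {R' | R * R' ∈ P} ∂κ := by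
  have := h.prob
  have := h'.prob
  have hm : MeasurableSet {p : OG d × OG d | p.1 * p.2 ∈ P} := measurable_mul hP
  have e1 := Measure.prod_apply (μ := κ) (ν := κ') hm
  have e2 := Measure.prod_apply_symm (μ := κ) (ν := κ') hm
  have e3 : ∫⁻ R', κ ((fun R => (R, R')) ⁻¹' {p : OG d × OG d | p.1 * p.2 ∈ P}) ∂κ' =
      ∫⁻ _, κ P ∂κ' := by
    refine lintegral_congr_ae ?_
    filter_upwards [h'.supp] with R' hR'
    conv_rhs => rw [← h.right R' (hR'.mono hT)]
    rw [Measure.map_apply (measurable_mul_const _) hP]
    rfl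
  rw [e3, lintegral_const, measure_univ, mul_one] at e2
  rw [← e2, e1]
  rfl

/-- Refinement on the left. -/
theorem HaarOn.refine_left {T T' : Submodule ℝ (Eu d)} {κ κ' : Measure (OG d)} (h : HaarOn T κ)
    (h' : HaarOn T' κ') (hT : T ≤ T') {P : Set (OG d)} (hP : MeasurableSet P) :
    κ P = ∫⁻ R, κ' {R' | R' * R ∈ P} ∂κ := by
  have := h.prob
  have := h'.prob
  have hm : MeasurableSet {p : OG d × OG d | p.2 * p.1 ∈ P} :=
    (measurable_snd.mul measurable_fst) hP
  have e1 := Measure.prod_apply (μ := κ) (ν := κ') hm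
  have e2 := Measure.prod_apply_symm (μ := κ) (ν := κ') hm
  have e3 : ∫⁻ R', κ ((fun R => (R, R')) ⁻¹' {p : OG d × OG d | p.2 * p.1 ∈ P}) ∂κ' =
      ∫⁻ _, κ P ∂κ' := by
    refine lintegral_congr_ae ?_
    filter_upwards [h'.supp] with R' hR'
    conv_rhs => rw [← h.left R' (hR'.mono hT)]
    rw [Measure.map_apply (measurable_const_mul _) hP]
    rfl
  rw [e3, lintegral_const, measure_univ, mul_one] at e2
  rw [← e2, e1]
  rfl

/-- An integral of a function bounded by one, and by `c` outside a set of measure at most `η`. -/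
theorem lintegral_le_of_bad {X : Type*} [MeasurableSpace X] {κ : Measure X}
    [IsProbabilityMeasure κ] {f : X → ℝ≥0∞} {B : Set X} (hB : MeasurableSet B) {c : ℝ≥0∞}
    (h1 : ∀ x, f x ≤ 1) (h2 : ∀ᵐ x ∂κ, x ∉ B → f x ≤ c) : ∫⁻ x, f x ∂κ ≤ κ B + c := by
  calc ∫⁻ x, f x ∂κ ≤ ∫⁻ x, (B.indicator 1 x + c) ∂κ := by
        refine lintegral_mono_ae ?_
        filter_upwards [h2] with x hx
        by_cases hxB : x ∈ B
        · rw [Set.indicator_of_mem hxB]
          exact (h1 x).trans le_self_add
        · exact (hx hxB).trans le_add_self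
    _ = κ B + c := by
        rw [lintegral_add_right _ measurable_const, lintegral_indicator_one hB, lintegral_const,
          measure_univ, mul_one]

end Vale.Agent.P347.Low
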