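import Vale.Agent.P347Z.Low.Reveal
import Vale.Agent.P347Z.Low.Gauss

/-!
P347, lower bound: for a random rotation the output of a short algorithm fails the test.
-/

open MeasureTheory Module
open scoped RealInnerProductSpace ENNReal

namespace Vale.Agent.P347.Low

variable {d q M : ℕ}

theorem oracle_pot (U : OG d) (x : Eu d) : oracle (pot M U) x =
    (1 / 2 * ∑ l, lam M l * (act U⁻¹ x l) ^ 2, act U (diagM M (act U⁻¹ x))) := by
  unfold oracle
  rw [gradient_pot]
  rfl

theorem continuous_diagM : Continuous (diagM (d := d) M) := by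
  unfold diagM
  fun_prop

theorem continuous_oracle : Continuous fun p : OG d × Eu d => oracle (pot M p.1) p.2 := by
  simp only [oracle_pot]
  have h1 : Continuous fun p : OG d × Eu d => act p.1⁻¹ p.2 :=
    continuous_act.comp (continuous_fst.inv.prodMk continuous_snd)
  refine Continuous.prodMk ?_
    (continuous_act.comp (continuous_fst.prodMk (continuous_diagM.comp h1)))
  refine continuous_const.mul (continuous_finsetSum _ fun l _ => continuous_const.mul ?_)
  exact ((PiLp.continuous_apply 2 _ l).comp h1).pow 2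

theorem measurable_oracle : Measurable fun p : OG d × Eu d => oracle (pot M p.1) p.2 :=
  continuous_oracle.measurable

theorem measurable_snoc {X Y : Type*} [MeasurableSpace X] [MeasurableSpace Y] {k : ℕ}
    {f : X → Fin k → Y} {g : X → Y} (hf : Measurable f) (hg : Measurable g) :
    Measurable fun x => (Fin.snoc (α := fun _ => Y) (f x) (g x) : Fin (k + 1) → Y) := by
  refine measurable_pi_lambda _ fun i => ?_
  refine Fin.lastCases ?_ (fun i => ?_) i
  · simpa only [Fin.snoc_last] using hg
  · simp only [Fin.snoc_castSucc]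
    exact (measurable_pi_apply i).comp hf

theorem measurable_answers (A : Algo d q) (M : ℕ) : letI := A.mΩ
    ∀ (k : ℕ) (hk : k ≤ q),
      Measurable fun p : A.Ω × OG d => A.answers (pot M p.2) p.1 k hk := by
  let _ := A.mΩ
  intro k
  induction k with
  | zero => exact fun _ => measurable_pi_lambda _ fun i => i.elim0
  | succ k ih =>
    intro hk
    have h1 := ih (Nat.le_of_succ_le hk)
    have h2 : Measurable fun p : A.Ω × OG d =>
        A.query ⟨k, hk⟩ (p.1, A.answers (pot M p.2) p.1 k (Nat.le_of_succ_le hk)) :=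
      (A.query_meas ⟨k, hk⟩).comp (measurable_fst.prodMk h1)
    have h3 := (measurable_oracle (M := M)).comp (measurable_snd.prodMk h2)
    exact measurable_snoc h1 h3

/-- The output of the algorithm for the seed `p.1` and the rotation `p.2`. -/
noncomputable def outp (A : Algo d q) (M : ℕ) (p : A.Ω × OG d) : Eu d :=
  A.out (p.1, A.answers (pot M p.2) p.1 q le_rfl)

theorem measurable_outp (A : Algo d q) (M : ℕ) : letI := A.mΩ
    Measurable (outp A M) := by
  let _ := A.mΩ
  exact A.out_meas.comp (measurable_fst.prodMk (measurable_answers A M q le_rfl))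

theorem isClosed_test (ε : ℝ) : IsClosed {z : Eu d | Test M ε z} := by
  unfold Test
  simp only [Set.ofPred_forall]
  refine isClosed_iInter fun a => isClosed_iInter fun _ => isClosed_le ?_ continuous_const
  unfold ip
  fun_prop

/-- The pairs (seed, rotation) for which the output passes the test. -/
def passSet (A : Algo d q) (M : ℕ) (ε : ℝ) : Set (A.Ω × OG d) :=
  {p | Test M ε (act p.2⁻¹ (outp A M p))}

theorem measurableSet_passSet (A : Algo d q) (M : ℕ) (ε : ℝ) : letI := A.mΩ
    MeasurableSet (passSet A M ε) := by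
  let _ := A.mΩ
  have h : Measurable fun p : A.Ω × OG d => act p.2⁻¹ (outp A M p) :=
    continuous_act.measurable.comp (measurable_snd.inv.prodMk (measurable_outp A M))
  exact h (isClosed_test ε).measurableSet

theorem pass_le (A : Algo d q) (ω : A.Ω) {δ ε : ℝ} (hδ : 0 < δ) (hd : 2 * q < d)
    (h4 : 4 * (q : ℝ) ≤ δ * d) {η : ℝ≥0∞}
    (hη : ∀ k ≤ q, ∀ r ≤ 2 * q, badP d M k r δ ≤ η)
    (hnot : ∀ (u : Fin (q + 1) → Eu d) (z : Eu d), Gram M δ u → z ∈ Kry M u q → ¬ Test M ε z) :
    ∀ (r k : ℕ) (hk : k + r = q) (T : Submodule ℝ (Eu d)) (κ : Measure (OG d))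
      (u : Fin k → Eu d) (U : OG d) (α : Fin k → ℝ × Eu d), HaarOn T κ →
      finrank ℝ T ≤ 2 * k → Gram M δ u → T ≤ Kry M u k →
      (∀ R, Fixes T R → A.answers (pot M (U * R)) ω k (by omega) = α) →
      κ {R | U * R ∈ Prod.mk ω ⁻¹' passSet A M ε} ≤ (r + 1 : ℕ) * η := by
  let _ := A.mΩ
  have hP : MeasurableSet (Prod.mk ω ⁻¹' passSet A M ε) :=
    measurable_prodMk_left (measurableSet_passSet A M ε)
  have hrk : ∀ (T : Submodule ℝ (Eu d)) (k : ℕ), k ≤ q → finrank ℝ T ≤ 2 * k →
      finrank ℝ T < d ∧ 2 * (finrank ℝ T : ℝ) ≤ δ * d := by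
    intro T k hk hT
    refine ⟨by omega, le_trans ?_ h4⟩
    have : 2 * finrank ℝ T ≤ 4 * q := by omega
    exact_mod_cast this
  intro r
  induction r with
  | zero =>
    intro k hk T κ u U α hκ hT hu hK hα
    obtain rfl : k = q := hk
    obtain ⟨h1, h2⟩ := hrk T k le_rfl hT
    refine (reveal hδ hκ h1 h2 hu hK U (A.out (ω, α)) hP (c := 0) ?_).trans ?_
    · intro R T₁ κ₁ v hR hv hle hK₁ _ hx hκ₁
      refine le_of_eq (measure_eq_zero_iff_ae_notMem.2 ?_)
      filter_upwards [hκ₁.supp] with S hS hmem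
      have e1 : A.answers (pot M (U * R * S)) ω k le_rfl = α := by
        rw [mul_assoc]
        exact hα _ (hR.mul (hS.mono hle))
      have e2 : act (U * R * S)⁻¹ (A.out (ω, α)) = act (U * R)⁻¹ (A.out (ω, α)) := by
        rw [mul_inv_rev (U * R) S, act_mul, hS.inv _ hx]
      have h3 : Test M ε (act (U * R * S)⁻¹ (outp A M (ω, U * R * S))) := hmem
      unfold outp at h3
      simp only [e1, e2] at h3
      exact hnot v _ hv (hK₁ hx) h3
    · simpa using hη k le_rfl _ hT
  | succ r ih =>
    intro k hk T κ u U α hκ hT hu hK hα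
    have hkq : k < q := by omega
    obtain ⟨h1, h2⟩ := hrk T k hkq.le hT
    refine (reveal hδ hκ h1 h2 hu hK U (A.query ⟨k, hkq⟩ (ω, α)) hP
      (c := (r + 1 : ℕ) * η) ?_).trans ?_
    · intro R T₁ κ₁ v hR hv hle hK₁ hr₁ hx hκ₁
      generalize hz : act (U * R)⁻¹ (A.query ⟨k, hkq⟩ (ω, α)) = z at hx
      obtain ⟨κ₂, hκ₂⟩ := exists_haarOn (T₁ ⊔ (ℝ ∙ diagM M z))
      have := hκ₁.prob
      have hP1 : MeasurableSet {S : OG d | U * R * S ∈ Prod.mk ω ⁻¹' passSet A M ε} :=
        measurable_const_mul (U * R) hP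
      rw [hκ₁.refine_right hκ₂ le_sup_left hP1]
      refine le_trans (lintegral_mono_ae (g := fun _ => (r + 1 : ℕ) * η) ?_) (by simp)
      filter_upwards [hκ₁.supp] with S hS
      have h5 := ih (k + 1) (by omega) _ κ₂ v (U * R * S)
        (Fin.snoc (α := fun _ => ℝ × Eu d) α
          (1 / 2 * ∑ l, lam M l * (z l) ^ 2, act (U * R * S) (diagM M z))) hκ₂
        ((finrank_sup_span T₁ _).trans (by omega)) hv
        (sup_le (hK₁.trans (kry_succ v))
          ((Submodule.span_singleton_le_iff_mem _ _).2 (diag_mem_kry (hK₁ hx)))) ?_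
      · refine le_trans (le_of_eq ?_) h5
        simp only [mul_assoc]
      · intro S' hS'
        have hS1 : Fixes T₁ S' := hS'.mono le_sup_left
        have e1 : A.answers (pot M (U * R * S * S')) ω k hkq.le = α := by
          rw [mul_assoc, mul_assoc]
          exact hα _ (hR.mul ((hS.mul hS1).mono hle))
        have e2 : act (U * R * S * S')⁻¹ (A.query ⟨k, hkq⟩ (ω, α)) = z := by
          rw [mul_assoc (U * R), mul_inv_rev (U * R), act_mul, hz, (hS.mul hS1).inv _ hx]
        have e3 : act (U * R * S * S') (diagM M z) = act (U * R * S) (diagM M z) := by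
          rw [act_mul, hS' _ (Submodule.mem_sup_right (Submodule.mem_span_singleton_self _))]
        simp only [Algo.answers]
        rw [e1, oracle_pot, e2, e3]
    · refine (add_le_add_left (hη k hkq.le _ (by omega)) _).trans (le_of_eq ?_)
      push_cast
      ring

end Vale.Agent.P347.Low
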