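import Vale.Agent.P347Z.Low.Defs
import Mathlib.Algebra.Group.ForwardDiff
import Mathlib.Algebra.Order.Chebyshev
import Mathlib.Data.Nat.Choose.Bounds
import Mathlib.Data.Nat.Factorial.BigOperators

/-!
P347, lower bound: a vector of the block Krylov space does not pass the test.
-/

open Finset

namespace Vale.Agent.P347.Low

/-- the differences of `1 / t` -/
theorem fwdDiff_inv (n : ℕ) : ∀ y : ℝ, 0 < y → (fwdDiff (1 : ℝ))^[n] (fun t : ℝ => t⁻¹) y =
    (-1) ^ n * (n.factorial : ℝ) / ∏ j ∈ range (n + 1), (y + j) := by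
  induction n with
  | zero => intro y hy; simp
  | succ n ih =>
    intro y hy
    rw [Function.iterate_succ_apply', fwdDiff, ih (y + 1) (by linarith), ih y hy]
    have h1 : ∏ j ∈ range (n + 1 + 1), (y + j) = (∏ j ∈ range (n + 1), (y + 1 + j)) * y := by
      rw [prod_range_succ']
      congr 1
      · exact prod_congr rfl fun j _ => by push_cast; ring
      · simp
    have h2 : ∏ j ∈ range (n + 1 + 1), (y + j) = (∏ j ∈ range (n + 1), (y + j)) * (y + (n + 1)) := by
      rw [prod_range_succ]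
      push_cast
      rfl
    have p1 : 0 < ∏ j ∈ range (n + 1), (y + 1 + j) := prod_pos fun j _ => by positivity
    have p2 : 0 < ∏ j ∈ range (n + 1), (y + j) := prod_pos fun j _ => by positivity
    have p3 : 0 < ∏ j ∈ range (n + 1 + 1), (y + j) := prod_pos fun j _ => by positivity
    have e1 : (∏ j ∈ range (n + 1), (y + 1 + j)) = (∏ j ∈ range (n + 1 + 1), (y + j)) / y := by
      rw [h1]
      field_simp
    have e2 : (∏ j ∈ range (n + 1), (y + j)) =
        (∏ j ∈ range (n + 1 + 1), (y + j)) / (y + (n + 1)) := by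
      rw [h2]
      field_simp
    rw [e1, e2]
    generalize (∏ j ∈ range (n + 1 + 1), (y + j)) = P at p3 ⊢
    rw [Nat.factorial_succ]
    push_cast
    field_simp
    ring

theorem prod_le (M : ℕ) : ∏ j ∈ range (M + 1), ((M : ℝ) + j) ≤ M * M.factorial * 4 ^ M := by
  have h1 : ∏ j ∈ range M, (M + 1 + j) ≤ M.factorial * 4 ^ M := by
    rw [← Nat.ascFactorial_eq_prod_range, Nat.ascFactorial_eq_factorial_mul_choose]
    refine Nat.mul_le_mul_left _ ((Nat.choose_le_two_pow _ _).trans (le_of_eq ?_))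
    rw [← two_mul, pow_mul]
    rfl
  have h2 : ∏ j ∈ range M, ((M : ℝ) + ((j + 1 : ℕ) : ℝ)) ≤ M.factorial * 4 ^ M := by
    have h3 : ((∏ j ∈ range M, (M + 1 + j) : ℕ) : ℝ) ≤ ((M.factorial * 4 ^ M : ℕ) : ℝ) := by
      exact_mod_cast h1
    push_cast at h3 ⊢
    refine le_trans (le_of_eq (prod_congr rfl fun j _ => by ring)) h3
  rw [prod_range_succ', Nat.cast_zero, add_zero, mul_comm, mul_assoc]
  exact mul_le_mul_of_nonneg_left h2 (Nat.cast_nonneg M)

/-- polynomials of degree below `M` are not close to `1 / x` at the nodes -/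
theorem poly_far {M : ℕ} (hM : 0 < M) (g : Polynomial ℝ) (hg : g.natDegree < M)
    (h : ∀ a ≤ M, |g.eval (node M a) - (node M a)⁻¹| ≤ 1 / 2 * (1 / 8) ^ M) : False := by
  have hM' : (0 : ℝ) < M := by exact_mod_cast hM
  have hG : (g.comp (Polynomial.C (M : ℝ)⁻¹ * Polynomial.X)).natDegree < M := by
    refine lt_of_le_of_lt (Polynomial.natDegree_comp_le.trans ?_) hg
    have h1 : (Polynomial.C (M : ℝ)⁻¹ * Polynomial.X).natDegree ≤ 1 :=
      (Polynomial.natDegree_C_mul_le _ _).trans Polynomial.natDegree_X_le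
    simpa using Nat.mul_le_mul_left g.natDegree h1
  have s1 := congrFun (Polynomial.fwdDiff_iter_eq_zero_of_degree_lt hG) (M : ℝ)
  have s2 := fwdDiff_inv M M hM'
  rw [fwdDiff_iter_eq_sum_shift] at s1 s2
  have e1 : ∀ k : ℕ, (M : ℝ)⁻¹ * ((M : ℝ) + k • (1 : ℝ)) = node M k := by
    intro k
    rw [node, nsmul_eq_mul, mul_one]
    field_simp
  have e2 : ∀ k : ℕ, (node M k)⁻¹ = M * ((M : ℝ) + k • (1 : ℝ))⁻¹ := by
    intro k
    rw [← e1, mul_inv, inv_inv]
  simp only [Polynomial.eval_comp, Polynomial.eval_mul, Polynomial.eval_C, Polynomial.eval_X, e1,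
    Pi.zero_apply] at s1
  have s3 : ∑ k ∈ range (M + 1), ((-1 : ℤ) ^ (M - k) * M.choose k) •
      (g.eval (node M k) - (node M k)⁻¹) =
      -(M * ((-1) ^ M * (M.factorial : ℝ) / ∏ j ∈ range (M + 1), ((M : ℝ) + j))) := by
    simp only [smul_sub]
    rw [← s2, mul_sum, sum_sub_distrib, s1, zero_sub]
    refine congrArg Neg.neg (sum_congr rfl fun k _ => ?_)
    rw [e2, mul_smul_comm]
  have s4 : |∑ k ∈ range (M + 1), ((-1 : ℤ) ^ (M - k) * M.choose k) •
      (g.eval (node M k) - (node M k)⁻¹)| ≤ 2 ^ M * (1 / 2 * (1 / 8) ^ M) := by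
    refine (abs_sum_le_sum_abs _ _).trans ?_
    have h2 : (2 : ℝ) ^ M = ∑ k ∈ range (M + 1), (M.choose k : ℝ) := by
      exact_mod_cast (Nat.sum_range_choose M).symm
    rw [h2, sum_mul]
    refine sum_le_sum fun k hk => ?_
    rw [zsmul_eq_mul, abs_mul]
    push_cast
    rw [abs_mul, abs_pow, abs_neg, abs_one, one_pow, one_mul, Nat.abs_cast]
    exact mul_le_mul_of_nonneg_left (h k (Nat.lt_succ_iff.1 (mem_range.1 hk))) (Nat.cast_nonneg _)
  have p : 0 < ∏ j ∈ range (M + 1), ((M : ℝ) + j) := prod_pos fun j _ => by positivity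
  have pf : (0 : ℝ) < M.factorial := by exact_mod_cast M.factorial_pos
  rw [s3, abs_neg, abs_mul, abs_div, abs_mul, abs_pow, abs_neg, abs_one, one_pow, one_mul,
    abs_of_pos hM', abs_of_pos pf, abs_of_pos p, ← mul_div_assoc, div_le_iff₀ p] at s4
  have s5 := s4.trans (mul_le_mul_of_nonneg_left (prod_le M) (by positivity))
  have s6 : (2 : ℝ) ^ M * (1 / 2 * (1 / 8) ^ M) * (M * M.factorial * 4 ^ M) =
      1 / 2 * (M * M.factorial) * (2 * (1 / 8) * 4) ^ M := by
    rw [mul_pow, mul_pow]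
    ring
  rw [s6] at s5
  norm_num at s5
  nlinarith [mul_pos hM' pf]

/-- the length of the component of a combination -/
theorem ip_err {d k M a : ℕ} {δ : ℝ} {u : Fin k → Eu d} {z : Eu d} (hδ : 0 ≤ δ)
    (hu : Gram M δ u) (ha : a ≤ M) (c : Fin k → ℝ) (hz : ∀ l ∈ cell d M a, z l = ∑ i, c i * u i l) :
    |ip M a z z - ((cell d M a).card : ℝ) / d * ∑ i, c i ^ 2| ≤ δ * (k * ∑ i, c i ^ 2) := by
  have h1 : ip M a z z = ∑ i, ∑ j, c i * c j * ip M a (u i) (u j) := by
    have h2 : ∀ l ∈ cell d M a, z l * z l = ∑ i, ∑ j, c i * c j * (u i l * u j l) := by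
      intro l hl
      rw [hz l hl, sum_mul_sum]
      exact sum_congr rfl fun i _ => sum_congr rfl fun j _ => by ring
    rw [ip, sum_congr rfl h2, sum_comm]
    refine sum_congr rfl fun i _ => ?_
    rw [sum_comm]
    refine sum_congr rfl fun j _ => ?_
    rw [ip, mul_sum]
  have h3 : ((cell d M a).card : ℝ) / d * ∑ i, c i ^ 2 =
      ∑ i, ∑ j, c i * c j * if i = j then ((cell d M a).card : ℝ) / d else 0 := by
    rw [mul_sum]
    refine sum_congr rfl fun i _ => ?_
    simp only [mul_ite, mul_zero, sum_ite_eq, mem_univ, if_true]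
    ring
  rw [h1, h3, ← sum_sub_distrib]
  calc _ ≤ ∑ i, ∑ j, |c i| * |c j| * δ := by
        refine (abs_sum_le_sum_abs _ _).trans (sum_le_sum fun i _ => ?_)
        rw [← sum_sub_distrib]
        refine (abs_sum_le_sum_abs _ _).trans (sum_le_sum fun j _ => ?_)
        rw [← mul_sub, abs_mul, abs_mul]
        exact mul_le_mul_of_nonneg_left (hu.2 a ha i j) (by positivity)
    _ = δ * (∑ i, |c i|) ^ 2 := by
        rw [sq, sum_mul_sum, mul_sum]
        refine sum_congr rfl fun i _ => ?_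
        rw [mul_sum]
        exact sum_congr rfl fun j _ => by ring
    _ ≤ δ * (k * ∑ i, c i ^ 2) := by
        refine mul_le_mul_of_nonneg_left ?_ hδ
        have h4 := sq_sum_le_card_mul_sum_sq (s := (univ : Finset (Fin k))) (f := fun i => |c i|)
        simpa using h4

theorem close {x g N I ε γ β : ℝ} (hx : 1 ≤ x) (hg : 0 ≤ g) (hN : 0 < N) (hε : 0 ≤ ε) (hγ : 0 ≤ γ)
    (hβ : β ≤ 1) (hs : ε + γ ≤ 1 / 4 * β) (h1 : |I - N * g| ≤ γ * N * g)
    (h2 : |x * I - N| ≤ ε * N) : |g - x⁻¹| ≤ 1 / 2 * β := by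
  have hx0 : 0 < x := by linarith
  have h3 : |x * g - 1| ≤ ε + γ * (x * g) := by
    refine le_of_mul_le_mul_left ?_ hN
    have h4 : N * |x * g - 1| = |(x * I - N) - x * (I - N * g)| := by
      rw [← abs_of_pos hN, ← abs_mul, abs_of_pos hN]
      congr 1
      ring
    rw [h4]
    refine (abs_sub _ _).trans ?_
    rw [abs_mul, abs_of_pos hx0]
    nlinarith [mul_le_mul_of_nonneg_left h1 hx0.le]
  have h5 : 0 ≤ x * g := mul_nonneg hx0.le hg
  have h6 : x * g ≤ 2 := by
    have := (abs_le.1 h3).2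
    nlinarith
  have h7 : |x * g - 1| ≤ 1 / 2 * β := by nlinarith
  have h8 : g - x⁻¹ = x⁻¹ * (x * g - 1) := by field_simp
  rw [h8, abs_mul, abs_of_pos (inv_pos.2 hx0)]
  exact (mul_le_of_le_one_left (abs_nonneg _) (inv_le_one_of_one_le₀ hx)).trans h7

theorem not_test {d q : ℕ} {δ ε : ℝ} {u : Fin (q + 1) → Eu d} {z : Eu d} (hd : 2 * q + 2 ≤ d)
    (hδ : 0 ≤ δ) (hε : 0 ≤ ε)
    (hsmall : ε + 4 * ((q : ℝ) + 1) ^ 2 * δ ≤ 1 / 4 * (1 / 8) ^ (2 * q + 1))
    (hu : Gram (2 * q + 1) δ u) (hz : z ∈ Kry (2 * q + 1) u q) : ¬ Test (2 * q + 1) ε z := by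
  intro hT
  obtain ⟨p, hp, hz⟩ := hz
  have hd0 : (0 : ℝ) < d := by exact_mod_cast (by omega : 0 < d)
  refine poly_far (M := 2 * q + 1) (Nat.succ_pos _) (Polynomial.C (d : ℝ)⁻¹ * ∑ i, p i ^ 2) ?_ ?_
  · refine lt_of_le_of_lt ((Polynomial.natDegree_C_mul_le _ _).trans
      (Polynomial.natDegree_sum_le_of_forall_le _ _ (n := 2 * q) fun i _ => ?_)) (Nat.lt_succ_self _)
    exact Polynomial.natDegree_pow_le.trans (Nat.mul_le_mul_left 2 (hp i))
  · intro a ha
    have hc := le_card_cell (d := d) ha hd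
    have hc' : (d : ℝ) ≤ 4 * ((q : ℝ) + 1) * (cell d (2 * q + 1) a).card := by
      have h1 : (d : ℝ) ≤ ((2 * (2 * q + 1 + 1) * (cell d (2 * q + 1) a).card : ℕ) : ℝ) := by
        exact_mod_cast hc
      push_cast at h1
      linarith
    have hN : (0 : ℝ) < (cell d (2 * q + 1) a).card := by
      have h1 : (cell d (2 * q + 1) a).card ≠ 0 := by
        intro h0
        rw [h0] at hc
        omega
      exact_mod_cast Nat.pos_of_ne_zero h1
    have he := ip_err (z := z) hδ hu ha (fun i => (p i).eval (node (2 * q + 1) a)) (by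
      intro l hl
      have h1 : (l : ℕ) % (2 * q + 1 + 1) = a := (mem_filter.1 hl).2
      rw [hz l, lam, h1])
    have hs : 0 ≤ ∑ i, (p i).eval (node (2 * q + 1) a) ^ 2 := sum_nonneg fun i _ => sq_nonneg _
    simp only [Polynomial.eval_mul, Polynomial.eval_C, Polynomial.eval_finsetSum,
      Polynomial.eval_pow]
    generalize (∑ i, (p i).eval (node (2 * q + 1) a) ^ 2) = s at he hs ⊢
    refine close (N := (cell d (2 * q + 1) a).card) (I := ip (2 * q + 1) a z z) ?_ (by positivity)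
      hN hε (by positivity) (pow_le_one₀ (by norm_num) (by norm_num)) hsmall ?_ (hT a ha)
    · rw [node]
      have : (0 : ℝ) ≤ (a : ℝ) / ((2 * q + 1 : ℕ) : ℝ) := by positivity
      linarith
    · rw [← mul_assoc, ← div_eq_mul_inv]
      refine he.trans ?_
      have h1 : s = d * ((d : ℝ)⁻¹ * s) := by field_simp
      have h2 : 0 ≤ (d : ℝ)⁻¹ * s := by positivity
      generalize (d : ℝ)⁻¹ * s = g at h1 h2 ⊢
      rw [h1]
      push_cast
      have h3 : 0 ≤ δ * ((q : ℝ) + 1) * g := by positivity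
      nlinarith [mul_le_mul_of_nonneg_left hc' h3]

end Vale.Agent.P347.Low
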