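import Vale.Agent.P347Z.Low.Ind
import Vale.Agent.P347Z.Low.Poly
import Vale.Agent.P347Z.Low.Class

/-!
P347: the logarithmic lower bound for the number of queries.
-/

open MeasureTheory Module
open scoped RealInnerProductSpace ENNReal

namespace Vale.Agent.P347.Low

variable {d q M : ℕ}

theorem pot_gauss (hM : 1 ≤ M) (U : OG d) : pot M U ∈ GaussClass d := ⟨pot_mem hM U, pot_quad U⟩

/-- For each rotation the output of a good algorithm passes the test with large probability. -/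
theorem le_pass (A : Algo d q) {θ ε : ℝ} (h : A.SamplesWithin (GaussClass d) θ) (hM : 1 ≤ M)
    (hd : M + 1 ≤ d) (hε : 0 < ε) (U : OG d) : letI := A.mΩ
    ENNReal.ofReal (1 - θ - 8 * ((M : ℝ) + 1) ^ 2 / (ε ^ 2 * d)) ≤
      A.P ((fun ω => (ω, U)) ⁻¹' passSet A M ε) := by
  let _ := A.mΩ
  have := A.prob
  have := target_prob hM U
  have hB : MeasurableSet {x : Eu d | Test M ε (act U⁻¹ x)} :=
    ((isClosed_test ε).preimage
      (continuous_act.comp (continuous_const.prodMk continuous_id))).measurableSet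
  have h1 := h _ (pot_gauss hM U) _ hB
  have h2 := gauss_test hM hd U hε
  have h3 : (target (pot M U)).real {x | ¬ Test M ε (act U⁻¹ x)} =
      1 - (target (pot M U)).real {x | Test M ε (act U⁻¹ x)} := probReal_compl_eq_one_sub hB
  have hm : Measurable fun ω : A.Ω => outp A M (ω, U) :=
    (measurable_outp A M).comp measurable_prodMk_right
  have h4 : (A.law (pot M U)) {x | Test M ε (act U⁻¹ x)} =
      A.P ((fun ω => (ω, U)) ⁻¹' passSet A M ε) := Measure.map_apply hm hB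
  rw [← ENNReal.ofReal_toReal (measure_ne_top A.P _), ← h4]
  refine ENNReal.ofReal_le_ofReal ?_
  have h5 := (abs_le.1 h1).1
  rw [measureReal_def] at h5
  linarith

/-- The averaging over the rotations. -/
theorem average (A : Algo d q) {θ δ ε : ℝ} (h : A.SamplesWithin (GaussClass d) θ)
    (hd : 2 * q + 2 ≤ d) (hδ : 0 < δ) (hε : 0 < ε) (h4 : 4 * (q : ℝ) ≤ δ * d) {η : ℝ≥0∞}
    (hη : ∀ k ≤ q, ∀ r ≤ 2 * q, badP d (2 * q + 1) k r δ ≤ η)
    (hsmall : ε + 4 * ((q : ℝ) + 1) ^ 2 * δ ≤ 1 / 4 * (1 / 8) ^ (2 * q + 1)) :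
    ENNReal.ofReal (1 - θ - 8 * (((2 * q + 1 : ℕ) : ℝ) + 1) ^ 2 / (ε ^ 2 * d)) ≤
      (q + 1 : ℕ) * η := by
  let _ := A.mΩ
  have := A.prob
  obtain ⟨κ, hκ⟩ := exists_haarOn (⊥ : Submodule ℝ (Eu d))
  have := hκ.prob
  have hS := measurableSet_passSet A (2 * q + 1) ε
  have e1 := Measure.prod_apply (μ := A.P) (ν := κ) hS
  have e2 := Measure.prod_apply_symm (μ := A.P) (ν := κ) hS
  calc ENNReal.ofReal (1 - θ - 8 * (((2 * q + 1 : ℕ) : ℝ) + 1) ^ 2 / (ε ^ 2 * d))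
      = ∫⁻ _, ENNReal.ofReal (1 - θ - 8 * (((2 * q + 1 : ℕ) : ℝ) + 1) ^ 2 / (ε ^ 2 * d)) ∂κ := by
        simp
    _ ≤ (A.P.prod κ) (passSet A (2 * q + 1) ε) := by
        rw [e2]
        exact lintegral_mono fun U => le_pass A h (by omega) (by omega) hε U
    _ ≤ ∫⁻ _, (q + 1 : ℕ) * η ∂A.P := by
        rw [e1]
        refine lintegral_mono fun ω => ?_
        have := pass_le A ω hδ (by omega) h4 hη
          (fun u z hu hz => not_test hd hδ.le hε.le hsmall hu hz) q 0 (Nat.zero_add q) ⊥ κ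
          Fin.elim0 1 Fin.elim0 hκ (by simp) ⟨fun i => i.elim0, fun _ _ i => i.elim0⟩ bot_le
          (fun _ _ => rfl)
        simpa only [one_mul, Set.ofPred_mem_eq] using this
    _ = (q + 1 : ℕ) * η := by simp

/-- **Lower bound**: an algorithm with `q` queries which samples from all Gaussian targets of the
class within total variation `θ` has 2 ^ (25 (q + 1)) ≥ (1 - θ) d. -/
theorem lower (A : Algo d q) {θ : ℝ} (h : A.SamplesWithin (GaussClass d) θ) :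
    (1 - θ) * d ≤ 2 ^ (25 * (q + 1)) := by
  have hθ : 0 ≤ θ := (abs_nonneg _).trans (h _ (pot_gauss (M := 1) le_rfl 1) ∅ MeasurableSet.empty)
  obtain ⟨B, hB⟩ : ∃ B : ℝ, B = 2 ^ (q + 1) := ⟨_, rfl⟩
  have hB2 : 2 * ((q : ℝ) + 1) ≤ B := by
    have h1 : q + 1 ≤ 2 ^ q := Nat.lt_two_pow_self
    have h2 : ((q : ℝ) + 1) ≤ 2 ^ q := by exact_mod_cast h1
    rw [hB, pow_succ]
    linarith
  have hq : (0 : ℝ) ≤ q := Nat.cast_nonneg q
  have hB1 : 2 ≤ B := by linarith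
  have hB0 : 0 < B := by linarith
  have e25 : (2 : ℝ) ^ (25 * (q + 1)) = B ^ 25 := by rw [hB, ← pow_mul, mul_comm]
  rw [e25]
  by_contra hcon
  rw [not_le] at hcon
  have hd0 : (0 : ℝ) ≤ d := Nat.cast_nonneg d
  have hdB : B ^ 25 < d := hcon.trans_le (by nlinarith)
  have hmono : ∀ m n : ℕ, m ≤ n → B ^ m ≤ B ^ n := fun m n hmn =>
    pow_le_pow_right₀ (by linarith) hmn
  have hdpos : (0 : ℝ) < d := (pow_pos hB0 25).trans hdB
  have hd1 : B ≤ d := by simpa using (hmono 1 25 (by norm_num)).trans hdB.le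
  have hd : 2 * q + 2 ≤ d := by
    have : ((2 * q + 2 : ℕ) : ℝ) ≤ d := by push_cast; linarith
    exact_mod_cast this
  have h4q : 4 * (q : ℝ) ≤ B ^ 2 := by nlinarith
  have h4 : 4 * (q : ℝ) ≤ 1 / B ^ 8 * d := by
    rw [one_div, inv_mul_eq_div, le_div_iff₀ (by positivity)]
    calc 4 * (q : ℝ) * B ^ 8 ≤ B ^ 2 * B ^ 8 := by gcongr
      _ = B ^ 10 := by ring
      _ ≤ d := (hmono 10 25 (by norm_num)).trans hdB.le
  have h4d : 4 * (q : ℝ) ≤ d := h4q.trans ((hmono 2 25 (by norm_num)).trans hdB.le)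
  have hη : ∀ k ≤ q, ∀ r ≤ 2 * q, badP d (2 * q + 1) k r (1 / B ^ 8) ≤
      ENNReal.ofReal (32 * B ^ 18 / d) := by
    intro k hk r hr
    refine ENNReal.ofReal_le_ofReal ?_
    have hk' : (k : ℝ) ≤ q := by exact_mod_cast hk
    have hr' : (r : ℝ) ≤ 2 * q := by exact_mod_cast hr
    have h1 : (d : ℝ) / 2 ≤ d - r := by linarith
    have h2 : (((2 * q + 1 : ℕ) : ℝ) + 1) * (k + 16) ≤ B * (16 * B) := by
      push_cast
      gcongr <;> linarith
    calc (((2 * q + 1 : ℕ) : ℝ) + 1) * (k + 16) / (((d : ℝ) - r) * (1 / B ^ 8) ^ 2)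
        ≤ B * (16 * B) / ((d : ℝ) / 2 * (1 / B ^ 8) ^ 2) := by gcongr
      _ = 32 * B ^ 18 / d := by field_simp; ring
  have hsmall : 1 / B ^ 6 + 4 * ((q : ℝ) + 1) ^ 2 * (1 / B ^ 8) ≤ 1 / 4 * (1 / 8) ^ (2 * q + 1) := by
    have e : (1 / 8 : ℝ) ^ (2 * q + 1) = 8 / B ^ 6 := by
      have e1 : B ^ 6 = 8 ^ (2 * q + 1) * 8 := by
        rw [hB, ← pow_mul, show (q + 1) * 6 = 3 * (2 * q + 1 + 1) by ring, pow_mul, pow_succ]
        norm_num
      rw [e1, one_div, inv_pow]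
      field_simp
    have h1 : 4 * ((q : ℝ) + 1) ^ 2 ≤ B ^ 2 := by nlinarith
    calc 1 / B ^ 6 + 4 * ((q : ℝ) + 1) ^ 2 * (1 / B ^ 8) ≤ 1 / B ^ 6 + B ^ 2 * (1 / B ^ 8) := by
          gcongr
      _ = 1 / 4 * (8 / B ^ 6) := by field_simp; norm_num
      _ = _ := by rw [e]
  have key := average A h hd (δ := 1 / B ^ 8) (ε := 1 / B ^ 6) (by positivity) (by positivity) h4
    hη hsmall
  rw [← ENNReal.ofReal_natCast, ← ENNReal.ofReal_mul (Nat.cast_nonneg _),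
    ENNReal.ofReal_le_ofReal_iff (by positivity)] at key
  have h5 : 8 * (((2 * q + 1 : ℕ) : ℝ) + 1) ^ 2 / ((1 / B ^ 6) ^ 2 * d) ≤ 8 * B ^ 19 / d := by
    have h1 : ((2 * q + 1 : ℕ) : ℝ) + 1 ≤ B := by push_cast; linarith
    calc 8 * (((2 * q + 1 : ℕ) : ℝ) + 1) ^ 2 / ((1 / B ^ 6) ^ 2 * d)
        ≤ 8 * B ^ 2 / ((1 / B ^ 6) ^ 2 * d) := by gcongr
      _ = 8 * B ^ 14 / d := by field_simp
      _ ≤ 8 * B ^ 19 / d := by gcongr <;> [linarith; norm_num]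
  have h6 : ((q + 1 : ℕ) : ℝ) * (32 * B ^ 18 / d) ≤ 32 * B ^ 19 / d := by
    have h1 : ((q + 1 : ℕ) : ℝ) ≤ B := by push_cast; linarith
    calc ((q + 1 : ℕ) : ℝ) * (32 * B ^ 18 / d) ≤ B * (32 * B ^ 18 / d) := by gcongr
      _ = 32 * B ^ 19 / d := by ring
  have h7 : 1 - θ ≤ 40 * B ^ 19 / d := by
    have : 40 * B ^ 19 / d = 8 * B ^ 19 / d + 32 * B ^ 19 / d := by ring
    linarith
  rw [le_div_iff₀ hdpos] at h7
  have h8 : (40 : ℝ) ≤ B ^ 6 := by
    have : (2 : ℝ) ^ 6 ≤ B ^ 6 := by gcongr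
    linarith
  have h9 : 40 * B ^ 19 ≤ B ^ 25 := by
    calc 40 * B ^ 19 ≤ B ^ 6 * B ^ 19 := by gcongr
      _ = B ^ 25 := by ring
  linarith

end Vale.Agent.P347.Low
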