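import Vale.Agent.P347Z.Low.Defs
import Mathlib.Analysis.InnerProductSpace.Projection.FiniteDimensional
import Mathlib.Analysis.InnerProductSpace.Projection.Reflection
import Mathlib.MeasureTheory.Integral.Bochner.Basic

/-!
P347, lower bound: a random unit vector orthogonal to a small subspace keeps the Gram property.
-/

open MeasureTheory
open scoped RealInnerProductSpace

namespace Vale.Agent.P347.Low

variable {d : ℕ}

/-- A rotation invariant law on the unit sphere of the orthogonal complement of `T`. -/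
structure Sph (T : Submodule ℝ (Eu d)) (ν : Measure (Eu d)) : Prop where
  supp : ∀ᵐ w ∂ν, ‖w‖ = 1 ∧ w ∈ Tᗮ
  inv : ∀ g : Eu d ≃ₗᵢ[ℝ] Eu d, (∀ x ∈ T, g x = x) → ν.map g = ν

namespace Sph

variable {T : Submodule ℝ (Eu d)} {ν : Measure (Eu d)} [IsProbabilityMeasure ν]

theorem integ (h : Sph T ν) {f : Eu d → ℝ} (hf : Continuous f) : Integrable f ν := by
  obtain ⟨C, hC⟩ := (isCompact_closedBall (0 : Eu d) 1).exists_bound_of_continuousOn
    hf.continuousOn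
  exact Integrable.of_bound hf.aestronglyMeasurable C
    (h.supp.mono fun w hw => hC w (by simp [hw.1]))

omit [IsProbabilityMeasure ν] in
theorem mom_eq (h : Sph T ν) (p : ℕ) {a b : Eu d} (ha : a ∈ Tᗮ) (hb : b ∈ Tᗮ)
    (hab : ‖a‖ = ‖b‖) : ∫ w, ⟪a, w⟫ ^ p ∂ν = ∫ w, ⟪b, w⟫ ^ p ∂ν := by
  have hg : ∀ x ∈ T, (ℝ ∙ (a - b))ᗮ.reflection x = x := fun x hx =>
    Submodule.reflection_mem_subspace_eq_self
      (Submodule.mem_orthogonal_singleton_iff_inner_right.2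
        (Submodule.inner_left_of_mem_orthogonal hx (Tᗮ.sub_mem ha hb)))
  have hc : Continuous fun w : Eu d => ⟪b, w⟫ ^ p := by fun_prop
  conv_rhs => rw [← h.inv _ hg]
  rw [integral_map (ℝ ∙ (a - b))ᗮ.reflection.continuous.aemeasurable hc.aestronglyMeasurable]
  refine integral_congr_ae (ae_of_all _ fun w => ?_)
  have e := (ℝ ∙ (a - b))ᗮ.reflection.inner_map_map a w
  rw [Submodule.reflection_sub hab] at e
  simp only [e]

omit [IsProbabilityMeasure ν] in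
theorem mom_norm (h : Sph T ν) (p : ℕ) {e v : Eu d} (he : e ∈ Tᗮ) (he1 : ‖e‖ = 1)
    (hv : v ∈ Tᗮ) : ∫ w, ⟪v, w⟫ ^ p ∂ν = ‖v‖ ^ p * ∫ w, ⟪e, w⟫ ^ p ∂ν := by
  rw [h.mom_eq p hv (Tᗮ.smul_mem ‖v‖ he) (by rw [norm_smul, he1, norm_norm, mul_one]),
    ← integral_const_mul]
  simp only [real_inner_smul_left, mul_pow]

theorem mom22 (h : Sph T ν) {e a b : Eu d} (he : e ∈ Tᗮ) (he1 : ‖e‖ = 1) (ha : a ∈ Tᗮ)
    (hb : b ∈ Tᗮ) (ha1 : ‖a‖ = 1) (hb1 : ‖b‖ = 1) (hab : ⟪a, b⟫ = 0) :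
    ∫ w, ⟪a, w⟫ ^ 2 * ⟪b, w⟫ ^ 2 ∂ν = (∫ w, ⟪e, w⟫ ^ 4 ∂ν) / 3 := by
  have n1 : ‖a + b‖ ^ 2 = 2 := by
    rw [norm_add_sq_real, ha1, hb1, hab]
    norm_num
  have n2 : ‖a - b‖ ^ 2 = 2 := by
    rw [norm_sub_sq_real, ha1, hb1, hab]
    norm_num
  have m1 := h.mom_norm 4 he he1 (Tᗮ.add_mem ha hb)
  have m2 := h.mom_norm 4 he he1 (Tᗮ.sub_mem ha hb)
  have m3 := h.mom_norm 4 he he1 ha
  have m4 := h.mom_norm 4 he he1 hb
  rw [show ‖a + b‖ ^ 4 = (‖a + b‖ ^ 2) ^ 2 by ring, n1] at m1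
  rw [show ‖a - b‖ ^ 4 = (‖a - b‖ ^ 2) ^ 2 by ring, n2] at m2
  rw [ha1] at m3
  rw [hb1] at m4
  have i1 : Integrable (fun w => ⟪a + b, w⟫ ^ 4) ν := h.integ (by fun_prop)
  have i2 : Integrable (fun w => ⟪a - b, w⟫ ^ 4) ν := h.integ (by fun_prop)
  have i3 : Integrable (fun w => 2 * ⟪a, w⟫ ^ 4) ν := h.integ (by fun_prop)
  have i4 : Integrable (fun w => 2 * ⟪b, w⟫ ^ 4) ν := h.integ (by fun_prop)
  have i5 : Integrable (fun w => 12 * (⟪a, w⟫ ^ 2 * ⟪b, w⟫ ^ 2)) ν := h.integ (by fun_prop)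
  have i6 : Integrable (fun w => 2 * ⟪a, w⟫ ^ 4 + 2 * ⟪b, w⟫ ^ 4) ν := i3.add i4
  have e1 : ∫ w, (⟪a + b, w⟫ ^ 4 + ⟪a - b, w⟫ ^ 4) ∂ν =
      ∫ w, (2 * ⟪a, w⟫ ^ 4 + 2 * ⟪b, w⟫ ^ 4 + 12 * (⟪a, w⟫ ^ 2 * ⟪b, w⟫ ^ 2)) ∂ν := by
    refine integral_congr_ae (ae_of_all _ fun w => ?_)
    simp only [inner_add_left, inner_sub_left]
    ring
  rw [integral_add i1 i2, integral_add i6 i5, integral_add i3 i4, integral_const_mul,
    integral_const_mul, integral_const_mul, m1, m2, m3, m4] at e1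
  linarith

variable {ι : Type} [Fintype ι]

theorem sum1' (h : Sph T ν) {e : Eu d} (he : e ∈ Tᗮ) (he1 : ‖e‖ = 1) {f : ι → Eu d}
    (hf : Orthonormal ℝ f) (hT : ∀ i, f i ∈ Tᗮ) :
    ∫ w, ∑ i, ⟪f i, w⟫ ^ 2 ∂ν = Fintype.card ι * ∫ w, ⟪e, w⟫ ^ 2 ∂ν := by
  rw [integral_finsetSum _ fun i _ => h.integ (by fun_prop),
    Finset.sum_congr rfl fun i _ => h.mom_norm 2 he he1 (hT i)]
  simp [hf.1]

theorem sum2' (h : Sph T ν) {e : Eu d} (he : e ∈ Tᗮ) (he1 : ‖e‖ = 1) {f : ι → Eu d}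
    (hf : Orthonormal ℝ f) (hT : ∀ i, f i ∈ Tᗮ) :
    ∫ w, (∑ i, ⟪f i, w⟫ ^ 2) ^ 2 ∂ν =
      Fintype.card ι * (Fintype.card ι + 2) * ((∫ w, ⟪e, w⟫ ^ 4 ∂ν) / 3) := by
  classical
  have e1 : ∀ i j, ∫ w, ⟪f i, w⟫ ^ 2 * ⟪f j, w⟫ ^ 2 ∂ν = (∫ w, ⟪e, w⟫ ^ 4 ∂ν) / 3 +
      if i = j then 2 * ((∫ w, ⟪e, w⟫ ^ 4 ∂ν) / 3) else 0 := by
    intro i j
    split_ifs with hij
    · have m := h.mom_norm 4 he he1 (hT j)
      rw [hf.1] at m
      rw [hij]
      simp only [← pow_add]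
      rw [m]
      ring
    · rw [h.mom22 he he1 (hT i) (hT j) (hf.1 i) (hf.1 j) (hf.2 hij), add_zero]
  simp only [sq (∑ i, ⟪f i, _⟫ ^ 2), Finset.sum_mul_sum]
  rw [integral_finsetSum _ fun i _ => h.integ (by fun_prop),
    Finset.sum_congr rfl fun i _ => integral_finsetSum _ fun j _ => h.integ (by fun_prop)]
  simp only [e1, Finset.sum_add_distrib, Finset.sum_ite_eq, Finset.mem_univ, if_true,
    Finset.sum_const, Finset.card_univ, nsmul_eq_mul]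
  ring

omit [IsProbabilityMeasure ν] in
theorem exists_on (W : Submodule ℝ (Eu d)) : ∃ f : Fin (Module.finrank ℝ W) → Eu d,
    Orthonormal ℝ f ∧ (∀ i, f i ∈ W) ∧ ∀ w ∈ W, ∑ i, ⟪f i, w⟫ ^ 2 = ‖w‖ ^ 2 :=
  ⟨fun i => stdOrthonormalBasis ℝ W i,
    (stdOrthonormalBasis ℝ W).orthonormal.comp_linearIsometry W.subtypeₗᵢ,
    fun i => (stdOrthonormalBasis ℝ W i).2,
    fun w hw => (stdOrthonormalBasis ℝ W).sum_sq_inner_right ⟨w, hw⟩⟩

/-- The second and the fourth moment. -/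
theorem moms (h : Sph T ν) (hn : 0 < Module.finrank ℝ Tᗮ) : ∃ e ∈ Tᗮ, ‖e‖ = 1 ∧
    ∫ w, ⟪e, w⟫ ^ 2 ∂ν = 1 / Module.finrank ℝ Tᗮ ∧ (∫ w, ⟪e, w⟫ ^ 4 ∂ν) / 3 =
      1 / (Module.finrank ℝ Tᗮ * (Module.finrank ℝ Tᗮ + 2)) := by
  obtain ⟨f, hf, hT, hw⟩ := exists_on Tᗮ
  have he := hT ⟨0, hn⟩
  have he1 := hf.1 ⟨0, hn⟩
  have hn' : (0 : ℝ) < Module.finrank ℝ Tᗮ := by exact_mod_cast hn
  have s1 := h.sum1' he he1 hf hT
  have s2 := h.sum2' he he1 hf hT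
  have c1 : ∫ w, ∑ i, ⟪f i, w⟫ ^ 2 ∂ν = ∫ _, (1 : ℝ) ∂ν :=
    integral_congr_ae (h.supp.mono fun w hw' => by simp only [hw w hw'.2, hw'.1, one_pow])
  have c2 : ∫ w, (∑ i, ⟪f i, w⟫ ^ 2) ^ 2 ∂ν = ∫ _, (1 : ℝ) ∂ν :=
    integral_congr_ae (h.supp.mono fun w hw' => by simp only [hw w hw'.2, hw'.1, one_pow])
  rw [c1] at s1
  rw [c2] at s2
  simp only [integral_const, probReal_univ, smul_eq_mul, one_mul, Fintype.card_fin] at s1 s2
  refine ⟨_, he, he1, ?_, ?_⟩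
  · rw [eq_div_iff hn'.ne', mul_comm, ← s1]
  · rw [eq_div_iff (by positivity), mul_comm, ← s2]

theorem markov (h : Sph T ν) {F : Eu d → ℝ} (hF : Continuous F) {c B : ℝ} (hc : 0 < c)
    (hB : ∫ w, F w ^ 2 ∂ν ≤ B) {A : Set (Eu d)}
    (hA : ∀ w ∈ A, ‖w‖ = 1 → w ∈ Tᗮ → c ≤ |F w|) : ν.real A ≤ B / c ^ 2 := by
  have h1 := mul_meas_ge_le_integral_of_nonneg (μ := ν) (f := fun w => F w ^ 2)
    (ae_of_all _ fun w => sq_nonneg _) (h.integ (hF.pow 2)) (c ^ 2)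
  have h2 : ν.real A ≤ ν.real {w | c ^ 2 ≤ F w ^ 2} := by
    refine ENNReal.toReal_mono (measure_ne_top _ _) (measure_mono_ae ?_)
    filter_upwards [h.supp] with w hw hwA
    exact sq_le_sq.2 ((abs_of_pos hc).trans_le (hA w hwA hw.1 hw.2))
  rw [le_div_iff₀ (by positivity), mul_comm]
  exact (mul_le_mul_of_nonneg_left h2 (sq_nonneg c)).trans (h1.trans hB)

/-- The scalar product with a short vector is small. -/
theorem inner_small (h : Sph T ν) (hn : 0 < Module.finrank ℝ Tᗮ) {δ : ℝ} (hδ : 0 < δ) {v : Eu d}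
    (hv : ‖v‖ ≤ 1) : ν.real {w | δ < |⟪v, w⟫|} ≤ 1 / (Module.finrank ℝ Tᗮ * δ ^ 2) := by
  obtain ⟨e, he, he1, m2, -⟩ := h.moms hn
  have hn' : (0 : ℝ) < Module.finrank ℝ Tᗮ := by exact_mod_cast hn
  have m := h.mom_norm 2 he he1 (Tᗮ.starProjection_apply_mem v)
  have hP : ‖Tᗮ.starProjection v‖ ^ 2 ≤ 1 :=
    pow_le_one₀ (norm_nonneg _) ((Tᗮ.norm_starProjection_apply_le v).trans hv)
  rw [← div_div]
  refine h.markov (F := fun w => ⟪Tᗮ.starProjection v, w⟫) (by fun_prop) hδ ?_ ?_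
  · rw [m, m2]
    exact mul_le_of_le_one_left (by positivity) hP
  · intro w hw _ hT
    rw [Submodule.inner_starProjection_left_eq_right, Submodule.starProjection_eq_self_iff.2 hT]
    exact le_of_lt hw

/-- The squared length of the projection on a subspace is concentrated. -/
theorem proj_low (h : Sph T ν) (hn : 0 < Module.finrank ℝ Tᗮ) {δ : ℝ} (hδ : 0 < δ)
    {f : ι → Eu d} (hf : Orthonormal ℝ f) (hT : ∀ i, f i ∈ Tᗮ)
    (hr : Fintype.card ι ≤ Module.finrank ℝ Tᗮ) :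
    ν.real {w | ∑ i, ⟪f i, w⟫ ^ 2 < Fintype.card ι / Module.finrank ℝ Tᗮ - δ / 2} ≤
      8 / (Module.finrank ℝ Tᗮ * δ ^ 2) := by
  obtain ⟨e, he, he1, m2, m4⟩ := h.moms hn
  have s1 := h.sum1' he he1 hf hT
  have s2 := h.sum2' he he1 hf hT
  rw [m2] at s1
  rw [m4] at s2
  have hn' : (0 : ℝ) < Module.finrank ℝ Tᗮ := by exact_mod_cast hn
  have hr' : (Fintype.card ι : ℝ) ≤ Module.finrank ℝ Tᗮ := by exact_mod_cast hr
  have hr0 : (0 : ℝ) ≤ Fintype.card ι := Nat.cast_nonneg _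
  generalize (Module.finrank ℝ Tᗮ : ℝ) = n at *
  generalize (Fintype.card ι : ℝ) = r at *
  rw [show 8 / (n * δ ^ 2) = 2 / n / (δ / 2) ^ 2 by field_simp; norm_num]
  refine h.markov (F := fun w => ∑ i, ⟪f i, w⟫ ^ 2 - r / n) (by fun_prop) (half_pos hδ) ?_ ?_
  · have i1 : Integrable (fun w => (∑ i, ⟪f i, w⟫ ^ 2) ^ 2) ν := h.integ (by fun_prop)
    have i2 : Integrable (fun w => 2 * (r / n) * ∑ i, ⟪f i, w⟫ ^ 2) ν := h.integ (by fun_prop)
    have i3 : Integrable (fun w => (∑ i, ⟪f i, w⟫ ^ 2) ^ 2 - 2 * (r / n) * ∑ i, ⟪f i, w⟫ ^ 2) ν :=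
      i1.sub i2
    have e1 : ∫ w, (∑ i, ⟪f i, w⟫ ^ 2 - r / n) ^ 2 ∂ν =
        ∫ w, ((∑ i, ⟪f i, w⟫ ^ 2) ^ 2 - 2 * (r / n) * ∑ i, ⟪f i, w⟫ ^ 2 + (r / n) ^ 2) ∂ν :=
      integral_congr_ae (ae_of_all _ fun w => by ring)
    rw [e1, integral_add i3 (integrable_const _), integral_sub i1 i2, integral_const_mul, s1, s2]
    simp only [integral_const, probReal_univ, smul_eq_mul, one_mul]
    have e2 : r * (r + 2) * (1 / (n * (n + 2))) - 2 * (r / n) * (r * (1 / n)) + (r / n) ^ 2 =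
        2 / n * (r * (n - r) / (n * (n + 2))) := by
      field_simp
      ring
    rw [e2]
    refine mul_le_of_le_one_right (by positivity) ?_
    rw [div_le_one (by positivity)]
    nlinarith
  · intro w hw _ _
    have hw' : ∑ i, ⟪f i, w⟫ ^ 2 < r / n - δ / 2 := hw
    rw [le_abs]
    right
    linarith

omit [IsProbabilityMeasure ν]

/-- The restriction of a vector to a set of coordinates. -/
noncomputable def res (I : Finset (Fin d)) (x : Eu d) : Eu d :=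
  WithLp.toLp 2 fun l => if l ∈ I then x l else 0

theorem inner_res (I : Finset (Fin d)) (x y : Eu d) : ⟪res I x, y⟫ = ∑ l ∈ I, x l * y l := by
  simp only [res, PiLp.inner_apply, RCLike.inner_apply, conj_trivial, mul_ite, mul_zero,
    Finset.sum_ite_mem, Finset.univ_inter]
  simp only [mul_comm]

theorem norm_res_sq (I : Finset (Fin d)) (x : Eu d) : ‖res I x‖ ^ 2 = ∑ l ∈ I, x l * x l := by
  rw [← real_inner_self_eq_norm_sq, inner_res]
  exact Finset.sum_congr rfl fun l hl => by simp [res, hl]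

theorem sum_add_compl (I : Finset (Fin d)) (x : Eu d) :
    ∑ l ∈ I, x l * x l + ∑ l ∈ Iᶜ, x l * x l = ‖x‖ ^ 2 := by
  rw [Finset.sum_add_sum_compl, EuclideanSpace.real_norm_sq_eq]
  simp only [sq]

theorem norm_res_le (I : Finset (Fin d)) (x : Eu d) : ‖res I x‖ ≤ ‖x‖ := by
  refine abs_le_of_sq_le_sq' ?_ (norm_nonneg _) |>.2
  rw [norm_res_sq, ← sum_add_compl I x]
  exact le_add_of_nonneg_right (Finset.sum_nonneg fun l _ => mul_self_nonneg _)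

/-- The vectors which are supported on a set of coordinates. -/
theorem exists_coord (I : Finset (Fin d)) : ∃ C : Submodule ℝ (Eu d),
    I.card ≤ Module.finrank ℝ C ∧ ∀ x ∈ C, res I x = x := by
  let φ : Eu d →ₗ[ℝ] ({l // l ∈ Iᶜ} → ℝ) := LinearMap.pi fun l => EuclideanSpace.projₗ l.1
  refine ⟨LinearMap.ker φ, ?_, fun x hx => ?_⟩
  · have h1 := φ.finrank_range_add_finrank_ker
    have h2 := (LinearMap.range φ).finrank_le
    have h3 := Finset.card_add_card_compl I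
    rw [Module.finrank_fintype_fun_eq_card, Fintype.card_coe] at h2
    rw [finrank_euclideanSpace] at h1
    omega
  · ext l
    by_cases hl : l ∈ I
    · simp [res, hl]
    · have := congrFun (LinearMap.mem_ker.1 hx) ⟨l, Finset.mem_compl.2 hl⟩
      simpa [res, hl, φ, eq_comm] using this

theorem cell_low [IsProbabilityMeasure ν]
    (h : Sph T ν) (hT : Module.finrank ℝ T < d) {δ : ℝ} (hδ : 0 < δ)
    (hTδ : 2 * (Module.finrank ℝ T : ℝ) ≤ δ * d) (I : Finset (Fin d)) :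
    ν.real {w | ∑ l ∈ I, w l * w l < I.card / d - δ} ≤ 8 / (Module.finrank ℝ Tᗮ * δ ^ 2) := by
  obtain ⟨C, hC, hres⟩ := exists_coord I
  obtain ⟨f, hf, hW, -⟩ := exists_on (Tᗮ ⊓ C)
  have h1 := T.finrank_add_finrank_orthogonal
  have h2 := Submodule.finrank_sup_add_finrank_inf_eq Tᗮ C
  have h3 := (Tᗮ ⊔ C).finrank_le
  have h4 : Module.finrank ℝ (Tᗮ ⊓ C : Submodule ℝ (Eu d)) ≤ Module.finrank ℝ Tᗮ :=
    Submodule.finrank_mono inf_le_left
  rw [finrank_euclideanSpace, Fintype.card_fin] at h1 h3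
  refine le_trans (measureReal_mono fun w hw => ?_)
    (h.proj_low (by omega) hδ hf (fun i => (hW i).1) (by rwa [Fintype.card_fin]))
  have hw' : ∑ l ∈ I, w l * w l < I.card / d - δ := hw
  have b1 : ∑ i, ⟪f i, w⟫ ^ 2 ≤ ∑ l ∈ I, w l * w l := by
    rw [← norm_res_sq]
    refine le_trans (le_of_eq (Finset.sum_congr rfl fun i _ => ?_))
      (hf.sum_inner_products_le (res I w) (s := Finset.univ))
    rw [Real.norm_eq_abs, sq_abs, real_inner_comm (res I w), inner_res, ← hres _ (hW i).2,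
      inner_res, hres _ (hW i).2]
    simp only [mul_comm]
  have r1 : (I.card : ℝ) ≤
      Module.finrank ℝ (Tᗮ ⊓ C : Submodule ℝ (Eu d)) + Module.finrank ℝ T := by
    exact_mod_cast (by omega : I.card ≤
      Module.finrank ℝ (Tᗮ ⊓ C : Submodule ℝ (Eu d)) + Module.finrank ℝ T)
  have r2 : (0 : ℝ) < Module.finrank ℝ Tᗮ := by exact_mod_cast (by omega : 0 < Module.finrank ℝ Tᗮ)
  have r3 : (Module.finrank ℝ Tᗮ : ℝ) ≤ d := by exact_mod_cast (by omega : Module.finrank ℝ Tᗮ ≤ d)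
  have r4 : (0 : ℝ) < d := r2.trans_le r3
  have r5 : (Module.finrank ℝ (Tᗮ ⊓ C : Submodule ℝ (Eu d)) : ℝ) / d ≤
      Module.finrank ℝ (Tᗮ ⊓ C : Submodule ℝ (Eu d)) / Module.finrank ℝ Tᗮ :=
    div_le_div_of_nonneg_left (Nat.cast_nonneg _) r2 r3
  have r6 : (I.card : ℝ) / d ≤ Module.finrank ℝ (Tᗮ ⊓ C : Submodule ℝ (Eu d)) / d + δ / 2 := by
    rw [div_le_iff₀ r4, add_mul, div_mul_cancel₀ _ r4.ne']
    linarith
  rw [Set.mem_ofPred_eq, Fintype.card_fin]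
  linarith

theorem ip_comm (M a : ℕ) (x y : Eu d) : ip M a x y = ip M a y x :=
  Finset.sum_congr rfl fun _ _ => mul_comm _ _

end Sph

open Sph in
theorem gram_step {d M k : ℕ} {δ : ℝ} (hδ : 0 < δ) (T : Submodule ℝ (Eu d))
    (hT : Module.finrank ℝ T < d) (hTδ : 2 * (Module.finrank ℝ T : ℝ) ≤ δ * d)
    (ν : Measure (Eu d)) [IsProbabilityMeasure ν] (hsupp : ∀ᵐ w ∂ν, ‖w‖ = 1 ∧ w ∈ Tᗮ)
    (hinv : ∀ g : Eu d ≃ₗᵢ[ℝ] Eu d, (∀ x ∈ T, g x = x) → ν.map g = ν) {u : Fin k → Eu d}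
    (hu : Gram M δ u) :
    ν.real {w | ¬ Gram M δ (Fin.cons w u : Fin (k + 1) → Eu d)} ≤
      ((M : ℝ) + 1) * (k + 16) / (((d : ℝ) - Module.finrank ℝ T) * δ ^ 2) := by
  have h : Sph T ν := ⟨hsupp, hinv⟩
  have h1 := T.finrank_add_finrank_orthogonal
  rw [finrank_euclideanSpace, Fintype.card_fin] at h1
  have hn : 0 < Module.finrank ℝ Tᗮ := by omega
  have hd : (0 : ℝ) < d := by exact_mod_cast (by omega : 0 < d)
  have e1 : (d : ℝ) - Module.finrank ℝ T = Module.finrank ℝ Tᗮ := by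
    rw [sub_eq_iff_eq_add, add_comm]
    exact_mod_cast h1.symm
  let B : ℕ → Set (Eu d) := fun a =>
    ({w | ∑ l ∈ cell d M a, w l * w l < (cell d M a).card / d - δ} ∪
      {w | ∑ l ∈ (cell d M a)ᶜ, w l * w l < ((cell d M a)ᶜ).card / d - δ}) ∪
      ⋃ i, {w | δ < |⟪res (cell d M a) (u i), w⟫|}
  have hB : ∀ a, ν.real (B a) ≤ (k + 16) / (Module.finrank ℝ Tᗮ * δ ^ 2) := by
    intro a
    have b1 := h.cell_low hT hδ hTδ (cell d M a)
    have b2 := h.cell_low hT hδ hTδ (cell d M a)ᶜ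
    have b3 := (measureReal_iUnion_fintype_le (μ := ν)
      fun i => {w | δ < |⟪res (cell d M a) (u i), w⟫|}).trans (Finset.sum_le_sum fun i _ =>
        h.inner_small hn hδ ((norm_res_le _ _).trans (hu.1 i).le))
    simp only [Finset.sum_const, Finset.card_univ, Fintype.card_fin, nsmul_eq_mul] at b3
    refine (measureReal_union_le _ _).trans ((add_le_add
      ((measureReal_union_le _ _).trans (add_le_add b1 b2)) b3).trans (le_of_eq ?_))
    ring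
  have hsub : ν.real {w | ¬ Gram M δ (Fin.cons w u : Fin (k + 1) → Eu d)} ≤
      ν.real (⋃ a ∈ Finset.range (M + 1), B a) := by
    refine ENNReal.toReal_mono (measure_ne_top _ _) (measure_mono_ae ?_)
    filter_upwards [hsupp] with w hw hG
    by_contra hc
    refine hG ⟨fun i => Fin.cases hw.1 (fun i => hu.1 i) i, fun a ha => ?_⟩
    have hc' : w ∉ B a := fun h' =>
      hc (Set.mem_biUnion (Finset.mem_coe.2 (Finset.mem_range.2 (Nat.lt_succ_of_le ha))) h')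
    simp only [B, Set.mem_union, Set.mem_iUnion, Set.mem_ofPred_eq, not_or, not_lt, not_exists,
      inner_res] at hc'
    obtain ⟨⟨c1, c2⟩, c3⟩ := hc'
    intro i j
    refine Fin.cases ?_ (fun i => ?_) i <;> refine Fin.cases ?_ (fun j => ?_) j
    · have s1 := sum_add_compl (cell d M a) w
      have s2 : ((cell d M a).card : ℝ) / d + ((cell d M a)ᶜ).card / d = 1 := by
        rw [← add_div, div_eq_one_iff_eq hd.ne']
        exact_mod_cast (Finset.card_add_card_compl _).trans (Fintype.card_fin d)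
      rw [hw.1] at s1
      rw [if_pos rfl, Fin.cons_zero, ip, abs_le]
      constructor <;> linarith
    · rw [if_neg (Fin.succ_ne_zero j).symm, Fin.cons_zero, Fin.cons_succ, sub_zero, ip_comm]
      exact c3 j
    · rw [if_neg (Fin.succ_ne_zero i), Fin.cons_zero, Fin.cons_succ, sub_zero]
      exact c3 i
    · simp only [Fin.cons_succ, Fin.succ_inj]
      exact hu.2 a ha i j
  refine hsub.trans ((measureReal_biUnion_finset_le _ _).trans
    ((Finset.sum_le_sum fun a _ => hB a).trans (le_of_eq ?_)))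
  rw [e1, Finset.sum_const, Finset.card_range, nsmul_eq_mul]
  push_cast
  ring

end Vale.Agent.P347.Low
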