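import Vale.Agent.P347Z.Low.Haar
import Vale.Agent.P347Z.Low.Sphere

/-!
P347, lower bound: revealing the preimage of one vector.
-/

open MeasureTheory Module
open scoped RealInnerProductSpace ENNReal

namespace Vale.Agent.P347.Low

variable {d M k j : ℕ}

theorem kry_cons (u : Fin k → Eu d) (w : Eu d) :
    Kry M u j ≤ Kry M (Fin.cons w u : Fin (k + 1) → Eu d) j := by
  rintro z ⟨p, hp, hz⟩
  refine ⟨Fin.cons 0 p, fun i => ?_, fun l => ?_⟩
  · refine Fin.cases ?_ (fun i => ?_) i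
    · simp
    · simpa using hp i
  · rw [Fin.sum_univ_succ]
    simp [hz l]

theorem self_mem_kry (u : Fin k → Eu d) (w : Eu d) :
    w ∈ Kry M (Fin.cons w u : Fin (k + 1) → Eu d) j := by
  refine ⟨Fin.cons 1 fun _ => 0, fun i => ?_, fun l => ?_⟩
  · refine Fin.cases ?_ (fun i => ?_) i <;> simp
  · rw [Fin.sum_univ_succ]
    simp

theorem kry_succ (u : Fin k → Eu d) : Kry M u j ≤ Kry M u (j + 1) := by
  rintro z ⟨p, hp, hz⟩
  exact ⟨p, fun i => (hp i).trans (Nat.le_succ j), hz⟩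

theorem diag_mem_kry {u : Fin k → Eu d} {z : Eu d} (hz : z ∈ Kry M u j) :
    diagM M z ∈ Kry M u (j + 1) := by
  obtain ⟨p, hp, hz⟩ := hz
  refine ⟨fun i => p i * Polynomial.X, fun i => ?_, fun l => ?_⟩
  · refine Polynomial.natDegree_mul_le.trans ?_
    exact Nat.add_le_add (hp i) Polynomial.natDegree_X_le
  · simp only [diagM, hz l, Finset.mul_sum, Polynomial.eval_mul, Polynomial.eval_X]
    exact Finset.sum_congr rfl fun i _ => by ring

theorem finrank_sup_span (T : Submodule ℝ (Eu d)) (w : Eu d) :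
    finrank ℝ (T ⊔ (ℝ ∙ w) : Submodule ℝ (Eu d)) ≤ finrank ℝ T + 1 := by
  refine (Submodule.finrank_add_le_finrank_add_finrank _ _).trans (Nat.add_le_add_left ?_ _)
  simpa using finrank_span_le_card (R := ℝ) ({w} : Set (Eu d))

theorem mem_sup_span {T : Submodule ℝ (Eu d)} {w x : Eu d} :
    x ∈ T ⊔ (ℝ ∙ w) ↔ ∃ t ∈ T, ∃ a : ℝ, x = t + a • w := by
  rw [Submodule.mem_sup]
  constructor
  · rintro ⟨t, ht, y, hy, rfl⟩
    obtain ⟨a, rfl⟩ := Submodule.mem_span_singleton.1 hy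
    exact ⟨t, ht, a, rfl⟩
  · rintro ⟨t, ht, a, rfl⟩
    exact ⟨t, ht, _, Submodule.mem_span_singleton.2 ⟨a, rfl⟩, rfl⟩

theorem exists_unit_dir {T : Submodule ℝ (Eu d)} (hT : finrank ℝ T < d) (x : Eu d) :
    ∃ w : Eu d, ‖w‖ = 1 ∧ w ∈ Tᗮ ∧ x ∈ T ⊔ (ℝ ∙ w) := by
  obtain ⟨t, ht, p, hp, rfl⟩ := T.exists_add_mem_mem_orthogonal x
  by_cases h0 : p = 0
  · have hne : Tᗮ ≠ ⊥ := by
      intro h
      have h1 := T.finrank_add_finrank_orthogonal
      rw [h, finrank_bot, finrank_euclideanSpace_fin] at h1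
      omega
    obtain ⟨y, hy, hy0⟩ := Submodule.exists_mem_ne_zero_of_ne_bot hne
    refine ⟨‖y‖⁻¹ • y, norm_smul_inv_norm hy0, Submodule.smul_mem _ _ hy, ?_⟩
    rw [h0, add_zero]
    exact Submodule.mem_sup_left ht
  · refine ⟨‖p‖⁻¹ • p, norm_smul_inv_norm h0, Submodule.smul_mem _ _ hp,
      mem_sup_span.2 ⟨t, ht, ‖p‖, ?_⟩⟩
    rw [smul_smul, mul_inv_cancel₀ (norm_ne_zero_iff.2 h0), one_smul]

theorem isClosed_gram (δ : ℝ) : IsClosed {v : Fin k → Eu d | Gram M δ v} := by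
  unfold Gram
  simp only [Set.ofPred_and, Set.ofPred_forall]
  refine IsClosed.inter (isClosed_iInter fun i => isClosed_eq (by fun_prop) continuous_const) ?_
  refine isClosed_iInter fun a => isClosed_iInter fun _ => isClosed_iInter fun i =>
    isClosed_iInter fun j => isClosed_le ?_ continuous_const
  unfold ip
  fun_prop

/-- The bound for the probability of a bad new direction. -/
noncomputable def badP (d M k r : ℕ) (δ : ℝ) : ℝ≥0∞ :=
  ENNReal.ofReal (((M : ℝ) + 1) * (k + 16) / (((d : ℝ) - r) * δ ^ 2))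

theorem bad_le {δ : ℝ} (hδ : 0 < δ) {T : Submodule ℝ (Eu d)} {κ : Measure (OG d)}
    (hκ : HaarOn T κ) (hT : finrank ℝ T < d) (hTδ : 2 * (finrank ℝ T : ℝ) ≤ δ * d)
    {u : Fin k → Eu d} (hu : Gram M δ u) {w : Eu d} (hw : ‖w‖ = 1) (hwT : w ∈ Tᗮ) :
    MeasurableSet {R : OG d | ¬ Gram M δ (Fin.cons (act R⁻¹ w) u : Fin (k + 1) → Eu d)} ∧
    κ {R : OG d | ¬ Gram M δ (Fin.cons (act R⁻¹ w) u : Fin (k + 1) → Eu d)} ≤
      badP d M k (finrank ℝ T) δ := by
  have := hκ.prob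
  have hc : Continuous fun R : OG d => act R⁻¹ w :=
    continuous_act.comp (continuous_inv.prodMk continuous_const)
  have hm := hc.measurable
  have hS : MeasurableSet {y : Eu d | ¬ Gram M δ (Fin.cons y u : Fin (k + 1) → Eu d)} := by
    have h1 : Continuous fun y : Eu d => (Fin.cons y u : Fin (k + 1) → Eu d) := by
      refine continuous_pi fun i => Fin.cases ?_ (fun i => ?_) i
      · exact continuous_id
      · exact continuous_const
    exact ((isClosed_gram δ).preimage h1).measurableSet.compl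
  refine ⟨hm hS, ?_⟩
  have : IsProbabilityMeasure (κ.map fun R => act R⁻¹ w) :=
    Measure.isProbabilityMeasure_map hm.aemeasurable
  have key := gram_step (M := M) hδ T hT hTδ (κ.map fun R => act R⁻¹ w) ?_ ?_ hu
  · rw [measureReal_def, Measure.map_apply hm hS] at key
    unfold badP
    exact (ENNReal.ofReal_toReal (measure_ne_top _ _)).symm.le.trans (ENNReal.ofReal_le_ofReal key)
  · have hcl : MeasurableSet {y : Eu d | ‖y‖ = 1 ∧ y ∈ Tᗮ} :=
      ((isClosed_eq continuous_norm continuous_const).inter T.isClosed_orthogonal).measurableSet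
    rw [ae_map_iff hm.aemeasurable hcl]
    filter_upwards [hκ.supp] with R hR
    refine ⟨by rw [norm_act, hw], fun t ht => ?_⟩
    rw [← inner_act R, act_act_inv, hR t ht]
    exact hwT t ht
  · intro g hg
    let G : OG d := Unitary.linearIsometryEquiv.symm g
    have hG : Fixes T G := hg
    rw [Measure.map_map g.continuous.measurable hm]
    conv_rhs => rw [← hκ.right G⁻¹ hG.inv]
    rw [Measure.map_map hm (measurable_mul_const _)]
    congr 1
    funext R
    simp only [Function.comp, mul_inv_rev, inv_inv, act_mul]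
    rfl

/-- **Revealing the preimage of the vector `x`.** -/
theorem reveal {δ : ℝ} (hδ : 0 < δ) {T : Submodule ℝ (Eu d)} {κ : Measure (OG d)}
    (hκ : HaarOn T κ) (hT : finrank ℝ T < d) (hTδ : 2 * (finrank ℝ T : ℝ) ≤ δ * d)
    {u : Fin k → Eu d} (hu : Gram M δ u) (hK : T ≤ Kry M u j) (U : OG d) (x : Eu d)
    {P : Set (OG d)} (hP : MeasurableSet P) {c : ℝ≥0∞}
    (h : ∀ (R : OG d) (T₁ : Submodule ℝ (Eu d)) (κ₁ : Measure (OG d)) (v : Fin (k + 1) → Eu d),
      Fixes T R → Gram M δ v → T ≤ T₁ → T₁ ≤ Kry M v j → finrank ℝ T₁ ≤ finrank ℝ T + 1 →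
      act (U * R)⁻¹ x ∈ T₁ → HaarOn T₁ κ₁ → κ₁ {S | U * R * S ∈ P} ≤ c) :
    κ {R | U * R ∈ P} ≤ badP d M k (finrank ℝ T) δ + c := by
  have := hκ.prob
  obtain ⟨w, hw, hwT, hx⟩ := exists_unit_dir hT (act U⁻¹ x)
  obtain ⟨κ', hκ'⟩ := exists_haarOn (T ⊔ (ℝ ∙ w))
  have := hκ'.prob
  have hP0 : MeasurableSet {R : OG d | U * R ∈ P} := measurable_const_mul U hP
  obtain ⟨hB, hBle⟩ := bad_le (M := M) hδ hκ hT hTδ hu hw hwT
  rw [hκ.refine_left hκ' le_sup_left hP0]
  refine (lintegral_le_of_bad hB (c := c) (fun _ => prob_le_one) ?_).trans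
    (add_le_add_left hBle _)
  filter_upwards [hκ.supp] with R hR hG
  have hG' : Gram M δ (Fin.cons (act R⁻¹ w) u : Fin (k + 1) → Eu d) := not_not.1 hG
  have hiff : ∀ y, y ∈ T ⊔ (ℝ ∙ act R⁻¹ w) ↔ act R y ∈ T ⊔ (ℝ ∙ w) := by
    intro y
    rw [mem_sup_span, mem_sup_span]
    constructor
    · rintro ⟨t, ht, a, rfl⟩
      exact ⟨t, ht, a, by rw [act_add, act_smul, act_act_inv, hR t ht]⟩
    · rintro ⟨t, ht, a, e⟩
      refine ⟨t, ht, a, ?_⟩
      rw [← act_inv_act R y, e, act_add, act_smul, hR.inv t ht]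
  have h1 := h R _ _ _ hR hG' le_sup_left
    (sup_le (hK.trans (kry_cons u _))
      ((Submodule.span_singleton_le_iff_mem _ _).2 (self_mem_kry u _)))
    (finrank_sup_span T _)
    (by rw [hiff, mul_inv_rev, act_mul, act_act_inv]; exact hx) (hκ'.conj R hiff)
  have hm : Measurable fun S : OG d => R⁻¹ * S * R := by fun_prop
  have hP1 : MeasurableSet {S : OG d | U * R * S ∈ P} := measurable_const_mul (U * R) hP
  rw [Measure.map_apply hm hP1] at h1
  refine le_trans (le_of_eq ?_) h1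
  congr 1
  ext S
  simp only [Set.mem_ofPred_eq, Set.mem_preimage]
  rw [show U * R * (R⁻¹ * S * R) = U * (S * R) by group]

end Vale.Agent.P347.Low
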